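import Crest.Agent.X261.Lim.A
import Crest.Agent.X261.Psh.Int
import Crest.Agent.X261.Eqv.Defs
import Crest.Agent.R281.Thn5_280

/-!
# Row 261, package LIM (helper58), file `Defs`

* `WP A η O ψ` : `ψ + η` is psh on `O` in every chart of the atlas `A`;
* `Pre` : two-point data at finite level `l`, living on the members `O k` of an open family that
  covers `M` off a codimension two set, and glued only up to `o(1)` at the good points;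
* `LimStmt` : such data have a limit `Eqv.TP`.
-/

set_option autoImplicit false
set_option linter.dupNamespace false

open Set Filter Topology Metric MeasureTheory

noncomputable section

namespace Crest.Agent.X261.Lim

open Crest.Agent.X261.Psh Crest.Agent.X261.Ans
open Crest.Agent.R281.Thn_280 (STh)

variable {E : Type} [NormedAddCommGroup E] [NormedSpace ℂ E] {M : Type} [TopologicalSpace M]

/-- the trace of `O ⊆ M` in the chart `j` -/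
def ch (A : HA E M) (j : A.ι) (O : Set M) : Set E := (A.e j).target ∩ (A.e j).symm ⁻¹' O

/-- `ψ + η` is psh on `O` in every chart -/
def WP (A : HA E M) (η : A.ι → E → ℝ) (O : Set M) (ψ : M → EReal) : Prop :=
  ∀ j, IsPsh (ch A j O) fun z => ψ ((A.e j).symm z) + (η j z : ℝ)

/-- the weight `η ⊞ η` on the product -/
def e2 {A : HA E M} (η : A.ι → E → ℝ) : (A.prod A).ι → E × E → ℝ :=
  fun p z => η p.1 z.1 + η p.2 z.2

/-- `σ`-thin in all charts (for `A = HA.of B` this is `SThM B S`) -/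
def Thin (A : HA E M) (S : Set M) : Prop := ∀ j, STh (ch A j S)

/-- discs avoiding `Z` with boundary in a fixed compact set (third clause of `Top.Cod2`) -/
def Dsc (A : HA E M) (Z : Set M) : Prop :=
  ∀ j, ∀ z₀ ∈ (A.e j).target, ∀ O ∈ 𝓝 z₀, ∃ N ∈ 𝓝 z₀, ∃ C : Set E,
    IsCompact C ∧ C ⊆ O ∩ (A.e j).target ∧ (∀ z ∈ C, (A.e j).symm z ∉ Z) ∧
    ∀ z ∈ N, (A.e j).symm z ∉ Z → ∃ v : E,
      (∀ t : ℂ, ‖t‖ ≤ 1 → z + t • v ∈ O ∩ (A.e j).target ∧ (A.e j).symm (z + t • v) ∉ Z) ∧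
      ∀ t : ℂ, ‖t‖ = 1 → z + t • v ∈ C

/-- locally pluripolar -/
def Plr (A : HA E M) (Z : Set M) : Prop :=
  ∀ j, ∀ z₀ ∈ (A.e j).target, ∃ (U : Set E) (v : E → EReal), IsOpen U ∧ z₀ ∈ U ∧ IsPsh U v ∧
    Dn U v ∧ ∀ z ∈ U, z ∈ (A.e j).target → (A.e j).symm z ∈ Z → v z = ⊥

/-- `u (x, y) - φ x - φ' y` -/
def xi (u : M × M → EReal) (φ φ' : M → EReal) (x y : M) : EReal := u (x, y) - φ x - φ' y

/-- **two-point data at finite level** `l`.  `q` = index of the refining sequence, `k` = member of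
the open family `O` (foliated charts), `S` = the bad set (`σ`-thin, not necessarily closed);
a point `x ∈ O k \ S` is *good*. -/
structure Pre (A : HA E M) (G : Type) [Group G] [MulAction G M] (η : A.ι → E → ℝ) where
  κ : Type
  O : κ → Set M
  opn : ∀ k, IsOpen (O k)
  dsc : Dsc A (⋃ k, O k)ᶜ
  plr : Plr A (⋃ k, O k)ᶜ
  S : Set M
  thin : Thin A S
  σ : G → κ → κ
  O_inv : ∀ (g : G) k x, g • x ∈ O (σ g k) ↔ x ∈ O k
  S_inv : ∀ (g : G) x, x ∈ S → g • x ∈ S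
  ψ : ℕ → κ → ℕ → M → EReal
  s : ℕ → κ → κ → ℕ → M × M → EReal
  lam : ℕ → ℝ
  c : ℕ → ℝ
  lam_pos : ∀ q, 0 < lam q
  c_pos : ∀ q, 0 < c q
  ψ_psh : ∀ q k l, WP A η (O k) (ψ q k l)
  s_psh : ∀ q k k' l, WP (A.prod A) (e2 η) (O k ×ˢ O k') (s q k k' l)
  ψ_inv : ∀ q (g : G) k l, ∀ x ∈ O k, ψ q (σ g k) l (g • x) = ψ q k l x
  s_inv : ∀ q (g : G) k k' l, ∀ x ∈ O k, ∀ y ∈ O k',
    s q (σ g k) (σ g k') l (g • x, g • y) = s q k k' l (x, y)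
  s_symm : ∀ q k k' l, ∀ x ∈ O k, ∀ y ∈ O k', s q k k' l (x, y) = s q k' k l (y, x)
  fin : ∀ q k l, ∀ x ∈ O k \ S, ψ q k l x ≠ ⊥
  law₁ : ∀ q k k', ∀ x ∈ (O k ∩ O k') \ S, ∀ ε : ℝ, 0 < ε →
    ∀ᶠ p in atTop ×ˢ 𝓝 x, p.2 ∉ S → ψ q k p.1 p.2 ≤ ψ q k' p.1 p.2 + ε
  law₂ : ∀ q k₁ k₁' k₂, ∀ x ∈ (O k₁ ∩ O k₁') \ S, ∀ y ∈ O k₂ \ S, ∀ ε : ℝ, 0 < ε →
    ∀ᶠ p in atTop ×ˢ 𝓝 (x, y), p.2.1 ∉ S → p.2.2 ∉ S →
      s q k₁ k₂ p.1 p.2 ≤ s q k₁' k₂ p.1 p.2 + ε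
  le : ∀ q k k' l, ∀ x ∈ O k \ S, ∀ y ∈ O k' \ S, s q k k' l (x, y) ≤ ψ q k l x + ψ q k' l y
  U : ∀ q k₁ k₂ k₃, ∀ x ∈ O k₁ \ S, ∀ y ∈ O k₂ \ S, ∀ z ∈ O k₃ \ S, ∀ ε : ℝ, 0 < ε →
    ∀ᶠ l in atTop, xi (s q k₁ k₃ l) (ψ q k₁ l) (ψ q k₃ l) x z ≤
      (lam q : EReal) * max (xi (s (q + 1) k₁ k₂ l) (ψ (q + 1) k₁ l) (ψ (q + 1) k₂ l) x y)
        (xi (s (q + 1) k₂ k₃ l) (ψ (q + 1) k₂ l) (ψ (q + 1) k₃ l) y z) + ε
  /-- Lelong number `≥ c q` of `s (·, y)` at the good point `y` (shape of `IsPsh.schwarz`) -/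
  R : ∀ q k l j, ∀ y ∈ O k \ S, y ∈ (A.e j).source → ∀ c' < c q, ∀ m : ℝ,
    ∃ᶠ r : ℝ in 𝓝[>] (0 : ℝ), ∀ z, ‖z - A.e j y‖ = r →
      s q k k l ((A.e j).symm z, y) ≤ ((m + c' * Real.log r : ℝ) : EReal)

/-- the output of LIM: the limit system, and the formula for `Xi` along a subsequence -/
structure Pre.Out [MeasurableSpace E] {A : HA E M} {G : Type} [Group G] [MulAction G M]
    {η : A.ι → E → ℝ} (P : Pre A G η) (μ : Measure E) where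
  T : Eqv.TP μ A G
  wt : T.wt = η
  φ_le : ∀ x, T.φ x ≤ 0
  good : ∀ x ∈ T.M0, x ∉ P.S ∧ ∃ k, x ∈ P.O k
  l : ℕ → ℕ
  l_top : Tendsto l atTop atTop
  w : ℕ → ℝ
  w_pos : ∀ q, 0 < w q
  Xi : ∀ q k k', ∀ x ∈ P.O k \ P.S, ∀ y ∈ P.O k' \ P.S, T.Xi q x y = (w q : EReal) *
    limsup (fun j => xi (P.s q k k' (l j)) (P.ψ q k (l j)) (P.ψ q k' (l j)) x y) atTop

/-- LIM : passage to the limit -/
def LimStmt : Prop :=
  ∀ (E : Type) [NormedAddCommGroup E] [NormedSpace ℂ E] [FiniteDimensional ℂ E] [Nontrivial E]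
    [MeasurableSpace E] [BorelSpace E] (μ : Measure E) [μ.IsAddHaarMeasure]
    (M : Type) [TopologicalSpace M] [ConnectedSpace M] (A : HA E M) [Countable A.ι]
    (G : Type) [Group G] [MulAction G M] (η : A.ι → E → ℝ),
    (∀ (g : G) (x : M), A.Hol A (fun y => g • y) x) → (∀ j, ContinuousOn (η j) (A.e j).target) →
    (∃ K : Set M, IsCompact K ∧ ∀ x : M, ∃ g : G, g • x ∈ K) →
    ∀ P : Pre A G η, Nonempty (P.Out μ)

end Crest.Agent.X261.Lim
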