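import Crest.Agent.X261.Lim.F

/-!
# Row 261, package LIM (helper58), file `G` : the theorem `limStmt`
-/

set_option autoImplicit false
set_option linter.dupNamespace false
set_option linter.unusedSectionVars false

open Set Filter Topology Metric MeasureTheory

noncomputable section

namespace Crest.Agent.X261.Lim

open Crest.Agent.X261.Psh Crest.Agent.X261.Ans

variable {E : Type} [NormedAddCommGroup E] [NormedSpace ℂ E] [FiniteDimensional ℂ E]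
  {M : Type} [TopologicalSpace M] {A : HA E M} {η : A.ι → E → ℝ}

theorem tendsto_xi {a b c : ℕ → EReal} {x y z : EReal} (hy : y ≠ ⊥) (hy' : y < ⊤) (hz : z ≠ ⊥)
    (hz' : z < ⊤) (ha : Tendsto a atTop (𝓝 x)) (hb : Tendsto b atTop (𝓝 y))
    (hc : Tendsto c atTop (𝓝 z)) : Tendsto (fun j => a j - b j - c j) atTop (𝓝 (x - y - z)) := by
  have key : ∀ {a b : ℕ → EReal} {x y : EReal}, y ≠ ⊥ → y < ⊤ → Tendsto a atTop (𝓝 x) →
      Tendsto b atTop (𝓝 y) → Tendsto (fun j => a j - b j) atTop (𝓝 (x - y)) := by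
    intro a b x y hy hy' ha hb
    exact (EReal.continuousAt_add (p := (x, -y)) (Or.inr (by simpa using hy'.ne))
      (Or.inr (by simpa using hy))).tendsto.comp (ha.prodMk_nhds hb.neg)
  exact key hz hz' (key hy hy' ha hb) hc

namespace Pre

variable {G : Type} [Group G] [MulAction G M] (P : Pre A G η)

/-- `Ξ` at level `l` in the charts `k, k'` -/
def xl (q : ℕ) (k k' : P.κ) (l : ℕ) (x y : M) : EReal :=
  xi (P.s q k k' l) (P.ψ q k l) (P.ψ q k' l) x y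

/-- the chart free limit of `Ξ` along the sequence `l` -/
def XI (l : ℕ → ℕ) (q : ℕ) (x y : M) : EReal :=
  ⨆ k, ⨆ k', ⨆ (_ : x ∈ P.O k ∧ y ∈ P.O k'), limsup (fun j => P.xl q k k' (l j) x y) atTop

variable {P}

theorem top {q : ℕ} {k : P.κ} {l : ℕ} {x : M} (hx : x ∈ P.O k) : P.ψ q k l x < ⊤ :=
  (P.ψ_psh q k l).lt_top hx

theorem pt₁ (q : ℕ) {k k' : P.κ} {x : M} (hx : x ∈ P.O k \ P.S) (hx' : x ∈ P.O k') {ε : ℝ}
    (hε : 0 < ε) : ∀ᶠ l in atTop, P.ψ q k l x ≤ P.ψ q k' l x + ε :=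
  ((P.law₁ q k k' x ⟨⟨hx.1, hx'⟩, hx.2⟩ ε hε).curry.mono fun _ h => h.self_of_nhds hx.2)

theorem xl_close (hη : ∀ j, ContinuousOn (η j) (A.e j).target) (q : ℕ) {k₁ k₂ k₁' k₂' : P.κ}
    {x y : M} (hx : x ∈ P.O k₁ \ P.S) (hy : y ∈ P.O k₂ \ P.S) (hx' : x ∈ P.O k₁')
    (hy' : y ∈ P.O k₂') {ε : ℝ} (hε : 0 < ε) :
    ∀ᶠ l in atTop, P.xl q k₁ k₂ l x y ≤ P.xl q k₁' k₂' l x y + ε := by
  have hε' : 0 < ε / 3 := by positivity
  have h1 := ((P.fam₂ hη q).law (k₁, k₂) (k₁', k₂') (x, y) ⟨⟨⟨hx.1, hy.1⟩, hx', hy'⟩,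
    not_or.2 ⟨hx.2, hy.2⟩⟩ _ hε').curry.mono fun _ h => h.self_of_nhds (not_or.2 ⟨hx.2, hy.2⟩)
  filter_upwards [h1, pt₁ q ⟨hx', hx.2⟩ hx.1 hε', pt₁ q ⟨hy', hy.2⟩ hy.1 hε'] with l h2 h3 h4
  have := xi_close (P.fin q k₁ l x hx) (top hx.1) (P.fin q k₂ l y hy) (top hy.1)
    (P.fin q k₁' l x ⟨hx', hx.2⟩) (P.fin q k₂' l y ⟨hy', hy.2⟩) h2 h3 h4
  rwa [add_thirds] at this

theorem XI_eq (hη : ∀ j, ContinuousOn (η j) (A.e j).target) {l : ℕ → ℕ}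
    (hl : Tendsto l atTop atTop) (q : ℕ) {k k' : P.κ} {x y : M} (hx : x ∈ P.O k \ P.S)
    (hy : y ∈ P.O k' \ P.S) : P.XI l q x y = limsup (fun j => P.xl q k k' (l j) x y) atTop :=
  le_antisymm (iSup_le fun _ => iSup_le fun _ => iSup_le fun h => limsup_le_close fun _ hε =>
      hl.eventually (xl_close hη q ⟨h.1, hx.2⟩ ⟨h.2, hy.2⟩ hx.1 hy.1 hε))
    (le_iSup_of_le k (le_iSup_of_le k' (le_iSup_of_le ⟨hx.1, hy.1⟩ le_rfl)))

theorem xl_le (q : ℕ) {k k' : P.κ} (l : ℕ) {x y : M} (hx : x ∈ P.O k \ P.S)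
    (hy : y ∈ P.O k' \ P.S) : P.xl q k k' l x y ≤ 0 :=
  xi_nonpos (P.fin q k l x hx) (top hx.1) (P.fin q k' l y hy) (top hy.1) (P.le q k k' l x hx y hy)

theorem xl_symm (q : ℕ) {k k' : P.κ} (l : ℕ) {x y : M} (hx : x ∈ P.O k) (hy : y ∈ P.O k') :
    P.xl q k k' l x y = P.xl q k' k l y x := by
  unfold xl xi
  rw [P.s_symm q k k' l x hx y hy, sub_eq_add_neg, sub_eq_add_neg, sub_eq_add_neg, sub_eq_add_neg,
    add_right_comm]

theorem xl_inv (q : ℕ) (g : G) {k k' : P.κ} (l : ℕ) {x y : M} (hx : x ∈ P.O k) (hy : y ∈ P.O k') :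
    P.xl q (P.σ g k) (P.σ g k') l (g • x) (g • y) = P.xl q k k' l x y := by
  unfold xl xi
  rw [P.s_inv q g k k' l x hx y hy, P.ψ_inv q g k l x hx, P.ψ_inv q g k' l y hy]

theorem good_smul (g : G) {k : P.κ} {x : M} (hx : x ∈ P.O k \ P.S) :
    g • x ∈ P.O (P.σ g k) \ P.S :=
  ⟨(P.O_inv g k x).2 hx.1, fun h => hx.2 (by simpa using P.S_inv g⁻¹ _ h)⟩

theorem XI_tri (hη : ∀ j, ContinuousOn (η j) (A.e j).target) {l : ℕ → ℕ}
    (hl : Tendsto l atTop atTop) (q : ℕ) {k₁ k₂ k₃ : P.κ} {x y z : M} (hx : x ∈ P.O k₁ \ P.S)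
    (hy : y ∈ P.O k₂ \ P.S) (hz : z ∈ P.O k₃ \ P.S) {b : ℝ} (h1 : P.XI l (q + 1) x y ≤ b)
    (h2 : P.XI l (q + 1) y z ≤ b) : P.XI l q x z ≤ ((P.lam q * b : ℝ) : EReal) := by
  rw [XI_eq hη hl _ hx hy] at h1
  rw [XI_eq hη hl _ hy hz] at h2
  rw [XI_eq hη hl _ hx hz]
  refine le_coe_of_forall fun ε hε => limsup_le_of_le (by isBoundedDefault) ?_
  have h0 := P.lam_pos q
  have hδ : 0 < ε / (P.lam q + 1) := by positivity
  filter_upwards [hl.eventually (P.U q k₁ k₂ k₃ x hx y hy z hz _ hδ),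
    eventually_lt_of_limsup_lt (lt_coe_add h1 hδ), eventually_lt_of_limsup_lt (lt_coe_add h2 hδ)]
    with j h3 h4 h5
  refine h3.trans ((add_le_coe (coe_mul_le h0.le (max_le h4.le h5.le)) le_rfl).trans (le_of_eq ?_))
  congr 1
  field_simp
  ring

end Pre

/-- **LIM** -/
theorem limStmt : LimStmt := by
  intro E _ _ _ _ _ _ μ _ M _ _ A _ G _ _ η hol hη ⟨K₀, hK₀, hc⟩ P
  have : ContinuousConstSMul G M := ⟨fun g => continuous_iff_continuousAt.2 fun x => (hol g x).1⟩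
  have : ProperSpace E := FiniteDimensional.proper ℂ E
  have : Countable (A.prod A).ι := inferInstanceAs (Countable (A.ι × A.ι))
  have hgood : Eqv.AE μ A fun x => x ∉ P.S ∧ x ∈ ⋃ k, P.O k := fun j => by
    filter_upwards [P.thin.ae μ j, P.plr.ae μ j] with z h1 h2 hz
    exact ⟨h1 hz, not_not.1 (h2 hz)⟩
  obtain ⟨x₀, hx₀S, hx₀⟩ := ae_exists μ hgood
  obtain ⟨k₀, hk₀⟩ := mem_iUnion.1 hx₀
  have hOi : ∀ (g : G) k, ∀ x ∈ P.O k, g • x ∈ P.O (P.σ g k) := fun g k x hx => (P.O_inv g k x).2 hx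
  choose n hn1 hn2 using fun q => exists_norm (P.fam₁ hη q) P.dsc P.thin hK₀ hc P.σ hOi
    (P.ψ_inv q) hk₀ (Eventually.of_forall fun i => P.fin q k₀ i x₀ ⟨hk₀, hx₀S⟩)
  let U : Ultrafilter ℕ := Ultrafilter.of atTop
  have hU : (U : Filter ℕ) ≤ atTop := Ultrafilter.of_le _
  let ψ' : ℕ → P.κ → ℕ → M → EReal := fun q k i x => P.ψ q k i x + (n q i : ℝ)
  let O₂ : P.κ × P.κ → Set (M × M) := fun k => P.O k.1 ×ˢ P.O k.2
  let s' : ℕ → P.κ × P.κ → ℕ → M × M → EReal := fun q k i p =>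
    P.s q k.1 k.2 i p + ((n q i + n q i : ℝ) : EReal)
  have F1 : ∀ q, Fam A η U P.O P.S (ψ' q) := fun q =>
    ((P.fam₁ hη q).add_const (n q)).filter_mono hU
  have F2 : ∀ q, Fam (A.prod A) (e2 η) U O₂ {p | p.1 ∈ P.S ∨ p.2 ∈ P.S} (s' q) := fun q =>
    ((P.fam₂ hη q).add_const fun i => n q i + n q i).filter_mono hU
  let φ : ℕ → M → EReal := fun q => gl U P.O (ψ' q)
  let u : ℕ → M × M → EReal := fun q => gl U O₂ (s' q)
  have g1 : ∀ q x, gl0 U P.O (ψ' q) x ≤ 0 := fun q x => (gl0_mono_filter hU x).trans (hn1 q x)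
  have g2 : ∀ q x, gl0 U O₂ (s' q) x ≤ 0 := fun q x =>
    (gl0_mono_filter hU x).trans (P.gl0₂_le hη q (hn1 q) x)
  have φ0 : ∀ q x, φ q x ≤ 0 := fun q => gl_le (g1 q)
  have u0 : ∀ q x, u q x ≤ 0 := fun q => gl_le (g2 q)
  have φp : ∀ q, WP A η univ (φ q) := fun q =>
    (F1 q).wp_gl P.plr fun _ => ⟨0, Eventually.of_forall (g1 q)⟩
  have up : ∀ q, WP (A.prod A) (e2 η) univ (u q) := fun q =>
    (F2 q).wp_gl (plr_prod P.plr) fun _ => ⟨0, Eventually.of_forall (g2 q)⟩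
  have φi : ∀ q (g : G) x, φ q (g • x) = φ q x := fun q =>
    gl_inv P.σ P.opn hOi fun g k i x hx => by simp only [ψ', P.ψ_inv q g k i x hx]
  have φae : ∀ q, Eqv.AE μ A fun x => φ q x ≠ ⊥ := fun q => by
    obtain ⟨x, hx⟩ := hn2 q U hU inferInstance
    exact (φp q).ae_ne_bot μ ((φp q).dn ⟨x, fun h => hx (le_bot_iff.1 (h ▸ gl0_le_gl x))⟩)
  obtain ⟨x₁, hx₁⟩ := ae_exists μ (p := fun x => ∀ q, φ q x ≠ ⊥) fun j => by
    filter_upwards [ae_all_iff.2 fun q => φae q j] with z h1 hz q using h1 q hz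
  obtain ⟨w, hw, hw1, hw2⟩ := exists_weights (fun q => φ0 q x₁) hx₁
  have hw0 : ∀ q, 0 ≤ w q := fun q => (hw q).le
  let Φ : M → EReal := fun x => wsum w fun q => φ q x
  have Φp : WP A η univ Φ := wp_wsum hη hw0 hw1 φp φ0
  have Φi : ∀ (g : G) x, Φ (g • x) = Φ x := fun g x => by simp only [Φ, φi]
  have Φφ : ∀ q x, Φ x ≤ w q * φ q x := fun q x => wsum_le hw0 (fun q => φ0 q x) q
  have φf : ∀ q x, Φ x ≠ ⊥ → φ q x ≠ ⊥ := fun q x h h' => h (le_bot_iff.1 (by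
    simpa [h', EReal.coe_mul_bot_of_pos (hw q)] using Φφ q x))
  have φt : ∀ q x, φ q x < ⊤ := fun q x => (φ0 q x).trans_lt EReal.zero_lt_top
  obtain ⟨l, hl, hl1, hl2⟩ := ((sel_atTop hU).and ((Sel.all fun q => (F1 q).sel μ
    (fun k i => (P.ψ_psh q k i).add_const _) fun x => (g1 q x).trans_lt EReal.zero_lt_top).and
    (Sel.all fun q => (F2 q).sel (μ.prod μ) (fun k i => (P.s_psh q k.1 k.2 i).add_const _)
      fun x => (g2 q x).trans_lt EReal.zero_lt_top))).exists'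
  let M0 : Set M := {x | x ∉ P.S ∧ (∃ k, x ∈ P.O k) ∧ Φ x ≠ ⊥ ∧
    ∀ q k, x ∈ P.O k → Tendsto (fun j => ψ' q k (l j) x) atTop (𝓝 (φ q x))}
  have hcl : ∀ q {k k' : P.κ} {x : M}, x ∉ P.S → x ∈ P.O k → x ∈ P.O k' → ∀ ε : ℝ, 0 < ε →
      ∀ᶠ j in atTop, ψ' q k (l j) x ≤ ψ' q k' (l j) x + ε := fun q k k' x h1 h2 h3 ε hε =>
    (hl.eventually (Pre.pt₁ q ⟨h2, h1⟩ h3 hε)).mono fun j hj => by
      simp only [ψ']; rw [add_right_comm]; exact add_le_add hj le_rfl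
  have M0ae : Eqv.AE μ A (· ∈ M0) := fun j => by
    filter_upwards [hgood j, Φp.ae_ne_bot μ (Φp.dn ⟨x₁, hw2⟩) j, ae_all_iff.2 fun q => hl1 q j]
      with z h1 h2 h3 hz
    refine ⟨(h1 hz).1, mem_iUnion.1 (h1 hz).2, h2 hz, fun q k hk => ?_⟩
    obtain ⟨k', hk', ht⟩ := h3 q hz (h1 hz).2
    exact tendsto_close (hcl q (h1 hz).1 hk hk') (hcl q (h1 hz).1 hk' hk) ht
  have XI0 : ∀ q, ∀ x ∈ M0, ∀ y ∈ M0, P.XI l q x y ≤ 0 := by
    intro q x ⟨h1, ⟨k, hk⟩, _⟩ y ⟨h2, ⟨k', hk'⟩, _⟩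
    rw [Pre.XI_eq hη hl q ⟨hk, h1⟩ ⟨hk', h2⟩]
    exact limsup_le_of_le (by isBoundedDefault)
      (Eventually.of_forall fun j => Pre.xl_le q _ ⟨hk, h1⟩ ⟨hk', h2⟩)
  have XIs : ∀ q, ∀ x ∈ M0, ∀ y ∈ M0, P.XI l q x y = P.XI l q y x := by
    intro q x ⟨h1, ⟨k, hk⟩, _⟩ y ⟨h2, ⟨k', hk'⟩, _⟩
    rw [Pre.XI_eq hη hl q ⟨hk, h1⟩ ⟨hk', h2⟩, Pre.XI_eq hη hl q ⟨hk', h2⟩ ⟨hk, h1⟩]
    simp only [Pre.xl_symm q _ hk hk']
  refine ⟨⟨⟨hol, K₀, hK₀, hc, η, fun j z hz => ⟨_, ((cont_at (hη j) hz).abs.eventually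
      (gt_mem_nhds (lt_add_one _))).mono fun _ h => h.le⟩, Φ, fun j => ch_univ A j ▸ Φp j, Φi, M0,
      M0ae, ?_, fun x hx => hx.2.2.1,
      fun q p => wsum w fun j => if j = q then u q p else φ j p.1 + φ j p.2, fun q j => ?_,
      fun q x y => w q * P.XI l q x y, fun q j => ?_, fun q x hx y hy => ?_,
      fun q x hx y hy => by rw [XIs q x hx y hy], fun q g x hx y hy => ?_, fun q => ?_,
      fun q => ?_⟩, rfl, fun _ => wsum_le_zero, fun x hx => ⟨hx.1, hx.2.1⟩, l, hl, w, hw,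
      fun q k k' x hx y hy => congrArg ((w q : EReal) * ·) (Pre.XI_eq hη hl q hx hy)⟩⟩
  · rintro g x ⟨h1, ⟨k, hk⟩, h2, h3⟩
    have h4 := Pre.good_smul g (P := P) ⟨hk, h1⟩
    refine ⟨h4.2, ⟨_, h4.1⟩, by rwa [Φi], fun q k' hk' => ?_⟩
    have h5 := h3 q _ (by simpa using hOi g⁻¹ k' _ hk')
    rw [φi]
    refine h5.congr fun j => ?_
    have := P.ψ_inv q g⁻¹ k' (l j) _ hk'
    rw [inv_smul_smul] at this
    simp only [ψ', this]
  · refine ch_univ (A.prod A) j ▸ wp_wsum (cont_e2 hη) hw0 hw1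
      (f := fun j p => if j = q then u q p else φ j p.1 + φ j p.2) (fun i => ?_) (fun i p => ?_) j
    · by_cases hi : i = q
      · simpa only [hi, if_true] using up q
      · simpa only [hi, if_false, univ_prod_univ] using wp_prod (φp i) (φp i)
    · split_ifs
      exacts [u0 q p, add_nonpos (φ0 i _) (φ0 i _)]
  · filter_upwards [ae_prod μ M0ae j, hl2 q j] with z h1 h2 hz
    set p := ((A.prod A).e j).symm z
    obtain ⟨hx, hy⟩ := h1 hz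
    obtain ⟨k₁, hk₁⟩ := hx.2.1
    obtain ⟨k₂, hk₂⟩ := hy.2.1
    obtain ⟨k, hk, ht⟩ := h2 hz (mem_iUnion.2 ⟨(k₁, k₂), mk_mem_prod hk₁ hk₂⟩)
    have e1 : P.XI l q p.1 p.2 = u q p - φ q p.1 - φ q p.2 := by
      rw [Pre.XI_eq hη hl q ⟨hk.1, hx.1⟩ ⟨hk.2, hy.1⟩]
      refine Tendsto.limsup_eq ((tendsto_xi (φf q _ hx.2.2.1) (φt q _) (φf q _ hy.2.2.1) (φt q _)
        ht (hx.2.2.2 q _ hk.1) (hy.2.2.2 q _ hk.2)).congr fun i => ?_)
      exact xi_shift _ _ (P.fin q _ _ _ ⟨hk.1, hx.1⟩) (Pre.top hk.1) (P.fin q _ _ _ ⟨hk.2, hy.1⟩)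
        (Pre.top hk.2)
    have e2 : (fun i => if i = q then u q p else φ i p.1 + φ i p.2) =
        fun i => (if i = q then P.XI l q p.1 p.2 else 0) + (φ i p.1 + φ i p.2) := by
      funext i
      split_ifs with hi
      · rw [hi, e1, xi_add (φf q _ hx.2.2.1) (φt q _) (φf q _ hy.2.2.1) (φt q _)]
      · rw [zero_add]
    change wsum w _ = _
    rw [e2, wsum_add hw0 (fun i => by split_ifs; exacts [XI0 q _ hx _ hy, le_rfl])
      (fun i => add_nonpos (φ0 i _) (φ0 i _)), wsum_single hw0 q (XI0 q _ hx _ hy),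
      wsum_add hw0 (fun i => φ0 i _) (fun i => φ0 i _), add_assoc]
  · exact mul_nonpos_of_nonneg_of_nonpos (EReal.coe_nonneg.2 (hw0 q)) (XI0 q x hx y hy)
  · obtain ⟨k, hk⟩ := hx.2.1
    obtain ⟨k', hk'⟩ := hy.2.1
    rw [Pre.XI_eq hη hl q (Pre.good_smul g ⟨hk, hx.1⟩) (Pre.good_smul g ⟨hk', hy.1⟩),
      Pre.XI_eq hη hl q ⟨hk, hx.1⟩ ⟨hk', hy.1⟩]
    simp only [Pre.xl_inv q g _ hk hk']
  · have h0 := P.lam_pos q
    have h1 := hw q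
    have h2 := hw (q + 1)
    refine ⟨w q * P.lam q / w (q + 1), 0, by positivity, fun x hx y hy z hz a _ h3 h4 => ?_⟩
    obtain ⟨k₁, hk₁⟩ := hx.2.1
    obtain ⟨k₂, hk₂⟩ := hy.2.1
    obtain ⟨k₃, hk₃⟩ := hz.2.1
    refine (coe_mul_le h1.le (Pre.XI_tri hη hl q ⟨hk₁, hx.1⟩ ⟨hk₂, hy.1⟩ ⟨hk₃, hz.1⟩
      (le_of_coe_mul_le h2 h3) (le_of_coe_mul_le h2 h4))).trans (le_of_eq ?_)
    congr 1
    field_simp
    ring
  · refine ⟨w q * P.c q, mul_pos (hw q) (P.c_pos q), fun j z₀ hz₀ => ?_⟩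
    obtain ⟨C, V, hV, hVt, hC⟩ := unif_pole hη (P.c_pos q) j hz₀
    refine ⟨w q * C, V, hV, fun z hz z' hz' hy hx r hr hzr => ?_⟩
    obtain ⟨k, hk⟩ := hx.2.1
    obtain ⟨k', hk'⟩ := hy.2.1
    have hF := (P.fam_slc hη q (n q) ⟨hk', hy.1⟩).comp hl
    have hF0 := P.gl0_slc_le hη q (hn1 q) ⟨hk', hy.1⟩ hl
    have h1 := P.slc_pole hη q (hn1 q) ⟨hk', hy.1⟩ hl ((A.e j).map_target (hVt hz))
    rw [(A.e j).right_inv (hVt hz)] at h1
    have h2 := hC _ (hF.wp_gl P.plr fun _ => ⟨0, Eventually.of_forall hF0⟩) (gl_le hF0) z hz h1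
      z' hz' r hr (by rwa [norm_sub_rev])
    rw [hF.gl_eq hk] at h2
    have h3 : P.XI l q ((A.e j).symm z') ((A.e j).symm z) + φ q ((A.e j).symm z') ≤
        ((P.c q * Real.log r + C : ℝ) : EReal) := by
      rw [Pre.XI_eq hη hl q ⟨hk, hx.1⟩ ⟨hk', hy.1⟩]
      refine (limsup_add_le' (φf q _ hx.2.2.1) (φt q _) (hx.2.2.2 q k hk)).trans
        (le_trans (le_of_eq ?_) ((limsup_le_rlim' _).trans h2))
      congr 1
      funext i
      exact xi_slice _ (P.fin q _ _ _ ⟨hk, hx.1⟩) (Pre.top hk) (P.fin q _ _ _ ⟨hk', hy.1⟩)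
        (Pre.top hk')
    change w q * P.XI l q _ _ + Φ _ ≤ _
    rw [XIs q _ hy _ hx]
    refine (add_le_add le_rfl (Φφ q _)).trans ?_
    rw [← coe_mul_add (hw0 q)]
    refine (coe_mul_le (hw0 q) h3).trans (le_of_eq ?_)
    congr 1; ring

end Crest.Agent.X261.Lim
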