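import Crest.Agent.X261.Lim.D

/-!
# Row 261, package LIM (helper58), file `E`

The families attached to `P : Pre A G η`: one-point family, two-point family, slices; uniform
logarithmic pole of the slices.
-/

set_option autoImplicit false
set_option linter.dupNamespace false
set_option linter.unusedSectionVars false

open Set Filter Topology Metric MeasureTheory

noncomputable section

namespace Crest.Agent.X261.Lim

open Crest.Agent.R275.FL884 (DiscIn)
open Crest.Agent.X261.Psh Crest.Agent.X261.Ans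

/-! ### extended real arithmetic -/

theorem xi_close {a a' b b' c c' : EReal} {e₁ e₂ e₃ : ℝ} (hb : b ≠ ⊥) (hb' : b < ⊤) (hc : c ≠ ⊥)
    (hc' : c < ⊤) (hb1 : b' ≠ ⊥) (hc1 : c' ≠ ⊥) (h1 : a ≤ a' + e₁) (h2 : b' ≤ b + e₂)
    (h3 : c' ≤ c + e₃) : a - b - c ≤ a' - b' - c' + ((e₁ + e₂ + e₃ : ℝ) : EReal) := by
  lift b to ℝ using ⟨hb'.ne, hb⟩
  lift c to ℝ using ⟨hc'.ne, hc⟩
  lift b' to ℝ using ⟨(h2.trans_lt (EReal.coe_lt_top (b + e₂))).ne, hb1⟩
  lift c' to ℝ using ⟨(h3.trans_lt (EReal.coe_lt_top (c + e₃))).ne, hc1⟩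
  induction a' with
  | bot => simp at h1; simp [h1]
  | top => simp [-EReal.coe_add]
  | coe a' =>
    induction a with
    | bot => simp
    | top => exact absurd h1 (not_le.2 (EReal.coe_lt_top (a' + e₁)))
    | coe a =>
      norm_cast at h1 h2 h3 ⊢
      linarith

theorem xi_shift {a b c : EReal} (m n : ℝ) (hb : b ≠ ⊥) (hb' : b < ⊤) (hc : c ≠ ⊥) (hc' : c < ⊤) :
    a + ((m + n : ℝ) : EReal) - (b + m) - (c + n) = a - b - c := by
  lift b to ℝ using ⟨hb'.ne, hb⟩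
  lift c to ℝ using ⟨hc'.ne, hc⟩
  induction a with
  | bot => simp
  | top => rw [← EReal.coe_add, ← EReal.coe_add]; simp [-EReal.coe_add]
  | coe a => norm_cast; ring

theorem xi_add {a b c : EReal} (hb : b ≠ ⊥) (hb' : b < ⊤) (hc : c ≠ ⊥) (hc' : c < ⊤) :
    a - b - c + (b + c) = a := by
  lift b to ℝ using ⟨hb'.ne, hb⟩
  lift c to ℝ using ⟨hc'.ne, hc⟩
  induction a with
  | bot => simp
  | top => rw [← EReal.coe_add]; simp [-EReal.coe_add]
  | coe a => norm_cast; ring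

theorem xi_nonpos {a b c : EReal} (hb : b ≠ ⊥) (hb' : b < ⊤) (hc : c ≠ ⊥) (hc' : c < ⊤)
    (h : a ≤ b + c) : a - b - c ≤ 0 := by
  lift b to ℝ using ⟨hb'.ne, hb⟩
  lift c to ℝ using ⟨hc'.ne, hc⟩
  induction a with
  | bot => simp
  | top => exact absurd h (not_le.2 (EReal.coe_lt_top (b + c)))
  | coe a => norm_cast at h ⊢; linarith

theorem xi_slice {a b c : EReal} (n : ℝ) (hb : b ≠ ⊥) (hb' : b < ⊤) (hc : c ≠ ⊥) (hc' : c < ⊤) :
    a - b - c + (b + n) = a + ((n - c.toReal : ℝ) : EReal) := by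
  lift b to ℝ using ⟨hb'.ne, hb⟩
  lift c to ℝ using ⟨hc'.ne, hc⟩
  induction a with
  | bot => simp
  | top => rw [← EReal.coe_add]; simp [-EReal.coe_add, -EReal.coe_sub]
  | coe a => rw [EReal.toReal_coe]; norm_cast; ring

theorem limsup_le_close {α : Type*} {l : Filter α} {a b : α → EReal}
    (h : ∀ ε : ℝ, 0 < ε → ∀ᶠ i in l, a i ≤ b i + ε) : limsup a l ≤ limsup b l := by
  refine le_of_forall_gt_imp_ge_of_dense fun c hc => ?_
  obtain ⟨d, h1, h2⟩ := EReal.lt_iff_exists_real_btwn.1 hc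
  refine le_trans (le_coe_of_forall fun ε hε => limsup_le_of_le (by isBoundedDefault) ?_) h2.le
  filter_upwards [h ε hε, eventually_lt_of_limsup_lt h1] with i h3 h4
  exact h3.trans (add_le_coe h4.le le_rfl)

theorem le_liminf_close {α : Type*} {l : Filter α} {a b : α → EReal}
    (h : ∀ ε : ℝ, 0 < ε → ∀ᶠ i in l, a i ≤ b i + ε) : liminf a l ≤ liminf b l := by
  refine le_of_forall_lt_imp_le_of_dense fun c hc => ?_
  obtain ⟨d, h1, h2⟩ := EReal.lt_iff_exists_real_btwn.1 hc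
  obtain ⟨d', h3, h4⟩ := EReal.lt_iff_exists_real_btwn.1 h2
  refine h1.le.trans (le_liminf_of_le (by isBoundedDefault) ?_)
  filter_upwards [h (d' - d) (sub_pos.2 (EReal.coe_lt_coe_iff.1 h3)),
    eventually_lt_of_lt_liminf h4] with i h5 h6
  refine le_of_add_coe (x := d' - d) (le_trans (le_of_eq ?_) (h6.le.trans h5))
  rw [← EReal.coe_add]; congr 1; ring

theorem tendsto_close {a b : ℕ → EReal} {x : EReal}
    (h : ∀ ε : ℝ, 0 < ε → ∀ᶠ i in atTop, a i ≤ b i + ε)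
    (h' : ∀ ε : ℝ, 0 < ε → ∀ᶠ i in atTop, b i ≤ a i + ε) (hb : Tendsto b atTop (𝓝 x)) :
    Tendsto a atTop (𝓝 x) :=
  tendsto_of_le_liminf_of_limsup_le (hb.liminf_eq.ge.trans (le_liminf_close h'))
    ((limsup_le_close h).trans hb.limsup_eq.le)

theorem limsup_add_le' {a b : ℕ → EReal} {x : EReal} (hx : x ≠ ⊥) (hx' : x < ⊤)
    (hb : Tendsto b atTop (𝓝 x)) : limsup a atTop + x ≤ limsup (fun i => a i + b i) atTop := by
  lift x to ℝ using ⟨hx'.ne, hx⟩
  refine le_of_forall_gt_imp_ge_of_dense fun c hc => ?_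
  obtain ⟨d, h1, h2⟩ := EReal.lt_iff_exists_real_btwn.1 hc
  refine le_trans (add_coe_le_iff.2 (le_coe_of_forall fun ε hε =>
    limsup_le_of_le (by isBoundedDefault) ?_)) h2.le
  filter_upwards [eventually_lt_of_limsup_lt h1, hb.eventually (lt_mem_nhds
    (show ((x - ε : ℝ) : EReal) < x from EReal.coe_lt_coe_iff.2 (by linarith)))] with i h3 h4
  refine (add_coe_le_iff.1 ((add_le_add le_rfl h4.le).trans h3.le)).trans (le_of_eq ?_)
  congr 1; ring

variable {E : Type} [NormedAddCommGroup E] [NormedSpace ℂ E] [FiniteDimensional ℂ E]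
  {M : Type} [TopologicalSpace M] {A : HA E M} {η : A.ι → E → ℝ}

/-! ### products -/

theorem cont_e2 (hη : ∀ j, ContinuousOn (η j) (A.e j).target) (p : (A.prod A).ι) :
    ContinuousOn (e2 η p) ((A.prod A).e p).target :=
  ((hη p.1).comp continuousOn_fst fun _ hz => hz.1).add
    ((hη p.2).comp continuousOn_snd fun _ hz => hz.2)

theorem circ_prod {S : Set M} (h : Thin A S) (p : (A.prod A).ι) (z : E × E) :
    Circ (ch (A.prod A) p {q | q.1 ∈ S ∨ q.2 ∈ S}) z := by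
  obtain ⟨v, hv⟩ := ((h p.1).dense_line z.1).nonempty
  obtain ⟨v', hv'⟩ := ((h p.2).dense_line z.2).nonempty
  refine circ_of_line (v := (v, v')) ((hv.union hv').mono fun t ht => ?_)
  rcases ht.2 with h1 | h1
  · exact Or.inl ⟨ht.1.1, h1⟩
  · exact Or.inr ⟨ht.1.2, h1⟩

theorem plr_prod {κ : Type*} {O : κ → Set M} (h : Plr A (⋃ k, O k)ᶜ) :
    Plr (A.prod A) (⋃ k : κ × κ, O k.1 ×ˢ O k.2)ᶜ := by
  intro p z hz
  obtain ⟨U, v, hU, hzU, hv, hd, hZ⟩ := h p.1 z.1 hz.1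
  obtain ⟨U', v', hU', hzU', hv', hd', hZ'⟩ := h p.2 z.2 hz.2
  refine ⟨U ×ˢ U', fun q => v q.1 + v' q.2, hU.prod hU', ⟨hzU, hzU'⟩,
    (hv.comp_fst U').add (hv'.comp_snd U), fun q hq => ?_, fun q hq hq1 hq2 => ?_⟩
  · rw [nhds_prod_eq]
    intro hn
    obtain ⟨S, hS, T, hT, h'⟩ := eventually_prod_iff.1 hn
    obtain ⟨a, ha1, ha2⟩ := ((hd q.1 hq.1).and_eventually hS).exists
    obtain ⟨b, hb1, hb2⟩ := ((hd' q.2 hq.2).and_eventually hT).exists
    exact h' ha2 hb2 (by simp [ha1, hb1])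
  · by_cases h1 : (A.e p.1).symm q.1 ∈ ⋃ k, O k
    · by_cases h2 : (A.e p.2).symm q.2 ∈ ⋃ k, O k
      · obtain ⟨k, hk⟩ := mem_iUnion.1 h1
        obtain ⟨k', hk'⟩ := mem_iUnion.1 h2
        exact absurd (mem_iUnion.2 ⟨(k, k'), mk_mem_prod hk hk'⟩) hq2
      · simp [hZ' q.2 hq.2 hq1.2 h2]
    · simp [hZ q.1 hq.1 hq1.1 h1]

theorem wp_prod {O O' : Set M} {ψ ψ' : M → EReal} (h : WP A η O ψ) (h' : WP A η O' ψ') :
    WP (A.prod A) (e2 η) (O ×ˢ O') fun q => ψ q.1 + ψ' q.2 := fun p =>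
  ((((h p.1).comp_fst _).add ((h' p.2).comp_snd _)).mono
    fun _ hz => ⟨⟨hz.1.1, hz.2.1⟩, hz.1.2, hz.2.2⟩).congr fun z _ => by
      simp only [e2, EReal.coe_add]
      exact add_add_add_comm _ _ _ _

theorem WP.slice {O O' : Set M} {s : M × M → EReal} (h : WP (A.prod A) (e2 η) (O ×ˢ O') s)
    {y : M} (hy : y ∈ O') : WP A η O fun x => s (x, y) := by
  intro j
  obtain ⟨j', hj'⟩ := A.cover y
  have h1 := ((h (j, j')).slice_left (A.e j' y)).add_const (-η j' (A.e j' y))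
  refine (h1.mono fun z hz => ⟨⟨hz.1, (A.e j').map_source hj'⟩, hz.2, ?_⟩).congr fun z _ => ?_
  · change (A.e j').symm (A.e j' y) ∈ O'
    rwa [(A.e j').left_inv hj']
  · change s ((A.e j).symm z, (A.e j').symm (A.e j' y)) + ((η j z + η j' (A.e j' y) : ℝ) : EReal) +
      _ = _
    rw [(A.e j').left_inv hj', EReal.coe_add, ← add_assoc, add_coe_neg]

/-! ### uniform pole -/

theorem exists_ball_bd {j : A.ι} (hη : ContinuousOn (η j) (A.e j).target) {W : Set E} {z₀ : E}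
    (hz₀ : z₀ ∈ (A.e j).target) (hW : W ∈ 𝓝 z₀) : ∃ R C : ℝ, 0 < R ∧
      ∀ z ∈ closedBall z₀ R, z ∈ W ∧ |η j z| ≤ C := by
  obtain ⟨R, hR, hB⟩ := nhds_basis_closedBall.mem_iff.1 (inter_mem hW
    ((cont_at hη hz₀).abs.eventually (gt_mem_nhds (lt_add_one _))))
  exact ⟨R, _, hR, fun z hz => ⟨(hB hz).1, le_of_lt (hB hz).2⟩⟩

/-- Schwarz lemma: a logarithmic pole of an `η`-psh function `F ≤ 0` is locally uniform -/
theorem unif_pole [Nontrivial E] (hη : ∀ j, ContinuousOn (η j) (A.e j).target) {c : ℝ}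
    (hc : 0 < c) (j : A.ι) {z₀ : E} (hz₀ : z₀ ∈ (A.e j).target) : ∃ C : ℝ, ∃ V ∈ 𝓝 z₀,
      V ⊆ (A.e j).target ∧ ∀ F : M → EReal, WP A η univ F → (∀ x, F x ≤ 0) → ∀ w ∈ V,
        (∃ C' : ℝ, ∀ᶠ z in 𝓝[≠] w, F ((A.e j).symm z) + (η j z : ℝ) ≤
          ((C' + c * Real.log ‖z - w‖ : ℝ) : EReal)) →
        ∀ z ∈ V, ∀ r : ℝ, 0 < r → ‖z - w‖ ≤ r →
          F ((A.e j).symm z) ≤ ((c * Real.log r + C : ℝ) : EReal) := by
  obtain ⟨R, C, hR, hB⟩ := exists_ball_bd (hη j) hz₀ ((A.e j).open_target.mem_nhds hz₀)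
  refine ⟨2 * C - c * Real.log (2 * R / 3), ball z₀ (R / 3), ball_mem_nhds _ (by positivity),
    fun z hz => (hB z (closedBall_subset_closedBall (by linarith) (ball_subset_closedBall hz))).1,
    fun F hF h0 w hw ⟨C', hC'⟩ => ?_⟩
  have hsub : closedBall w (2 * R / 3) ⊆ closedBall z₀ R := fun z hz => by
    have := dist_triangle z w z₀
    rw [mem_closedBall] at hz ⊢
    rw [mem_ball] at hw
    linarith
  have hp := hF j
  rw [ch_univ] at hp
  have key : ∀ z, z ≠ w → ‖z - w‖ ≤ 2 * R / 3 → ∀ r : ℝ, ‖z - w‖ ≤ r →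
      F ((A.e j).symm z) + (η j z : ℝ) ≤
        ((C + c * (Real.log r - Real.log (2 * R / 3)) : ℝ) : EReal) := by
    intro z hz h1 r h2
    refine (hp.schwarz' w (fun y hy => (hB y (hsub hy.1)).1) hC' (b := C) (fun y hy => ?_) hz
      h1).trans (EReal.coe_le_coe_iff.2 ?_)
    · have := (abs_le.1 (hB y (hsub (by rw [mem_closedBall, dist_eq_norm, hy]))).2).2
      simpa using add_le_coe (x := 0) (h0 _) (EReal.coe_le_coe_iff.2 this)
    · have := Real.log_le_log (norm_pos_iff.2 (sub_ne_zero.2 hz)) h2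
      nlinarith
  intro z hz r hr hzr
  have hzw : ‖z - w‖ ≤ 2 * R / 3 := by
    have := dist_triangle_right z w z₀
    rw [mem_ball] at hz hw
    rw [← dist_eq_norm]
    linarith
  have h1 : F ((A.e j).symm z) + (η j z : ℝ) ≤
      ((C + c * (Real.log r - Real.log (2 * R / 3)) : ℝ) : EReal) := by
    by_cases he : z = w
    · subst he
      obtain ⟨v, hv⟩ := exists_norm_eq E (c := min r (2 * R / 3)) (by positivity)
      have e : ∀ t : ℂ, ‖z + t • v - z‖ = ‖t‖ * min r (2 * R / 3) := fun t => by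
        rw [add_sub_cancel_left, norm_smul, hv]
      have hm : 0 < min r (2 * R / 3) := by positivity
      refine hp.sub.le_const (v := v) (fun t ht => (hB _ (hsub ?_)).1) fun t ht => key _ ?_ ?_ r ?_
      · rw [mem_closedBall, dist_eq_norm, e]
        exact (mul_le_of_le_one_left hm.le ht).trans (min_le_right _ _)
      · intro h'
        have := e t
        rw [h', ht] at this
        simp only [sub_self, norm_zero, one_mul] at this
        exact hm.ne this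
      · rw [e, ht, one_mul]; exact min_le_right _ _
      · rw [e, ht, one_mul]; exact min_le_left _ _
    · exact key z he hzw r hzr
  refine (add_coe_le_iff.1 h1).trans (EReal.coe_le_coe_iff.2 ?_)
  have := (abs_le.1 (hB z (closedBall_subset_closedBall (by linarith)
    (ball_subset_closedBall hz))).2).1
  linarith

namespace Pre

variable {G : Type} [Group G] [MulAction G M] (P : Pre A G η)
  (hη : ∀ j, ContinuousOn (η j) (A.e j).target)
include hη

theorem fam₁ (q : ℕ) : Fam A η atTop P.O P.S (P.ψ q) :=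
  ⟨hη, P.opn, P.thin.circ, fun k => Eventually.of_forall (P.ψ_psh q k), P.law₁ q⟩

theorem fam₂ (q : ℕ) : Fam (A.prod A) (e2 η) atTop (fun k : P.κ × P.κ => P.O k.1 ×ˢ P.O k.2)
    {p | p.1 ∈ P.S ∨ p.2 ∈ P.S} fun k => P.s q k.1 k.2 := by
  refine ⟨cont_e2 hη, fun k => (P.opn _).prod (P.opn _), circ_prod P.thin,
    fun k => Eventually.of_forall (P.s_psh q k.1 k.2), fun k k' x hx ε hε => ?_⟩
  have hS := not_or.1 hx.2
  have h1 := P.law₂ q k.1 k'.1 k.2 x.1 ⟨⟨hx.1.1.1, hx.1.2.1⟩, hS.1⟩ x.2 ⟨hx.1.1.2, hS.2⟩ _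
    (half_pos hε)
  have h2 := P.law₂ q k.2 k'.2 k'.1 x.2 ⟨⟨hx.1.1.2, hx.1.2.2⟩, hS.2⟩ x.1 ⟨hx.1.2.1, hS.1⟩ _
    (half_pos hε)
  filter_upwards [h1, (tendsto_id.prodMap (continuous_swap.tendsto x)).eventually h2,
    tendsto_snd.eventually (((P.opn _).prod (P.opn _)).mem_nhds hx.1.1),
    tendsto_snd.eventually (((P.opn _).prod (P.opn _)).mem_nhds hx.1.2)] with p h3 h4 h5 h6 h7
  have h8 := not_or.1 h7
  have h9 : P.s q k.2 k'.1 p.1 (p.2.2, p.2.1) ≤ P.s q k'.2 k'.1 p.1 (p.2.2, p.2.1) + (ε / 2 : ℝ) :=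
    h4 h8.2 h8.1
  rw [← P.s_symm q _ _ _ _ h6.1 _ h5.2, ← P.s_symm q _ _ _ _ h6.1 _ h6.2] at h9
  refine (h3 h8.1 h8.2).trans ((add_le_add h9 le_rfl).trans (le_of_eq ?_))
  rw [add_assoc, ← EReal.coe_add, add_halves]

theorem le' (q : ℕ) (k k' : P.κ) (l : ℕ) {x y : M} (hx : x ∈ P.O k) (hy : y ∈ P.O k') :
    P.s q k k' l (x, y) ≤ P.ψ q k l x + P.ψ q k' l y :=
  (P.s_psh q k k' l).le_of_circ (cont_e2 hη) ((P.opn _).prod (P.opn _)) (circ_prod P.thin)
    (x := (x, y)) ⟨hx, hy⟩ (g := fun p => P.ψ q k l p.1 + P.ψ q k' l p.2)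
    ((wp_prod (P.ψ_psh q k l) (P.ψ_psh q k' l)).usc (cont_e2 hη) ((P.opn _).prod (P.opn _))
      ⟨hx, hy⟩) (mem_of_superset (((P.opn _).prod (P.opn _)).mem_nhds ⟨hx, hy⟩) fun _ hp hS =>
        P.le q k k' l _ ⟨hp.1, (not_or.1 hS).1⟩ _ ⟨hp.2, (not_or.1 hS).2⟩)

theorem gl0₂_le (q : ℕ) {n : ℕ → ℝ}
    (hn : ∀ x, gl0 atTop P.O (fun k i x => P.ψ q k i x + (n i : ℝ)) x ≤ 0) (p : M × M) :
    gl0 atTop (fun k : P.κ × P.κ => P.O k.1 ×ˢ P.O k.2)
      (fun k i p => P.s q k.1 k.2 i p + ((n i + n i : ℝ) : EReal)) p ≤ 0 := by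
  have hF := (P.fam₁ hη q).add_const n
  refine iSup₂_le fun k hk => le_coe_of_forall (b := 0) fun ε hε => rlim_le ?_
  have h1 := ev_lt_of_rlim_lt (lt_coe_add (b := 0) ((hF.gl0_eq hk.1).ge.trans (hn _)) (half_pos hε))
  have h2 := ev_lt_of_rlim_lt (lt_coe_add (b := 0) ((hF.gl0_eq hk.2).ge.trans (hn _)) (half_pos hε))
  filter_upwards [(tendsto_id.prodMap (continuous_fst.tendsto p)).eventually h1,
    (tendsto_id.prodMap (continuous_snd.tendsto p)).eventually h2,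
    tendsto_snd.eventually (((P.opn _).prod (P.opn _)).mem_nhds hk)] with r h3 h4 h5
  refine (add_le_add (P.le' hη q _ _ _ h5.1 h5.2) le_rfl).trans ?_
  rw [EReal.coe_add, add_add_add_comm]
  exact (add_le_coe h3.le h4.le).trans (EReal.coe_le_coe_iff.2 (by linarith))

/-- the family of slices at a good point -/
def slc (q : ℕ) (n : ℕ → ℝ) (k' : P.κ) (y : M) (k : P.κ) (i : ℕ) (x : M) : EReal :=
  P.s q k k' i (x, y) + ((n i - (P.ψ q k' i y).toReal : ℝ) : EReal)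

theorem fam_slc (q : ℕ) (n : ℕ → ℝ) {k' : P.κ} {y : M} (hy : y ∈ P.O k' \ P.S) :
    Fam A η atTop P.O P.S (P.slc q n k' y) := by
  refine Fam.add_const (u := fun k i x => P.s q k k' i (x, y)) ⟨hη, P.opn, P.thin.circ,
    fun k => Eventually.of_forall fun i => (P.s_psh q k k' i).slice hy.1,
    fun k k₁ x hx ε hε => ?_⟩ _
  have t : Tendsto (fun x : M => (x, y)) (𝓝 x) (𝓝 (x, y)) :=
    (continuous_id.prodMk continuous_const).tendsto x
  filter_upwards [(tendsto_id.prodMap t).eventually (P.law₂ q k k₁ k' x hx y hy ε hε)] with p h1 h2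
  exact h1 h2 hy.2

theorem slc_le (q : ℕ) (n : ℕ → ℝ) {k' : P.κ} {y : M} (hy : y ∈ P.O k' \ P.S) (k : P.κ) (i : ℕ)
    {x : M} (hx : x ∈ P.O k) : P.slc q n k' y k i x ≤ P.ψ q k i x + (n i : ℝ) := by
  refine (add_le_add (P.le' hη q k k' i hx hy.1) le_rfl).trans (le_of_eq ?_)
  have h1 := P.fin q k' i y hy
  have h2 := (P.ψ_psh q k' i).lt_top hy.1
  lift P.ψ q k' i y to ℝ using ⟨h2.ne, h1⟩ with a
  rw [add_assoc, ← EReal.coe_add, EReal.toReal_coe]
  congr 2; ring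

theorem gl0_slc_le (q : ℕ) {n : ℕ → ℝ}
    (hn : ∀ x, gl0 atTop P.O (fun k i x => P.ψ q k i x + (n i : ℝ)) x ≤ 0) {k' : P.κ} {y : M}
    (hy : y ∈ P.O k' \ P.S) {l : ℕ → ℕ} (hl : Tendsto l atTop atTop) (x : M) :
    gl0 atTop P.O (fun k i => P.slc q n k' y k (l i)) x ≤ 0 := by
  refine iSup₂_le fun k hk => le_trans ?_ ((((P.fam₁ hη q).add_const n).gl0_eq hk).ge.trans (hn x))
  refine le_trans (rlim_mono (u' := fun i x => P.ψ q k (l i) x + (n (l i) : ℝ))
    (tendsto_snd.eventually ((P.opn k).mem_nhds hk) |>.mono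
    fun p hp => P.slc_le hη q n hy k _ hp)) ?_
  exact rlim_comp_le (u := fun i x => P.ψ q k i x + (n i : ℝ)) (j := l) (F := fun _ x => x)
    (hl.prodMap tendsto_id)

theorem slc_pole (q : ℕ) {n : ℕ → ℝ}
    (hn : ∀ x, gl0 atTop P.O (fun k i x => P.ψ q k i x + (n i : ℝ)) x ≤ 0) {k' : P.κ} {y : M}
    (hy : y ∈ P.O k' \ P.S) {l : ℕ → ℕ} (hl : Tendsto l atTop atTop) {j : A.ι}
    (hj : y ∈ (A.e j).source) : ∃ C' : ℝ, ∀ᶠ z in 𝓝[≠] (A.e j y),
      gl atTop P.O (fun k i => P.slc q n k' y k (l i)) ((A.e j).symm z) + (η j z : ℝ) ≤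
        ((C' + P.c q * Real.log ‖z - A.e j y‖ : ℝ) : EReal) := by
  have : ProperSpace E := FiniteDimensional.proper ℂ E
  set w := A.e j y with hw
  obtain ⟨R, C, hR, hB⟩ := exists_ball_bd (hη j) ((A.e j).map_source hj)
    ((isOpen_ch A j (P.opn k')).mem_nhds ((mem_ch hj).2 hy.1))
  have hF := (P.fam₁ hη q).add_const n
  have h1 : ∀ᶠ i in atTop, ∀ z ∈ closedBall w R,
      P.ψ q k' i ((A.e j).symm z) + (n i : ℝ) + (η j z : ℝ) < ((C + 1 : ℝ) : EReal) := by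
    refine hartogs' (isCompact_closedBall w R) (g := fun _ => C + 1)
      (u := fun i z => P.ψ q k' i ((A.e j).symm z) + (n i : ℝ) + (η j z : ℝ))
      (fun _ _ => continuousAt_const) fun z hz => ?_
    rw [rlim_chart (fun i x => P.ψ q k' i x + (n i : ℝ)) (hη j) (hB z hz).1.1,
      ← hF.gl0_eq (hB z hz).1.2]
    refine lt_coe_add ?_ one_pos
    simpa using add_le_coe (x := 0) (hn _) (EReal.coe_le_coe_iff.2 (abs_le.1 (hB z hz).2).2)
  have h2 : ∀ᶠ i in atTop, ∀ z, z ≠ w → ‖z - w‖ ≤ R →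
      P.slc q n k' y k' i ((A.e j).symm z) + (η j z : ℝ) ≤
        ((C + 1 + P.c q * (Real.log ‖z - w‖ - Real.log R) : ℝ) : EReal) := by
    filter_upwards [h1] with i hi z hz hzR
    have hp : WP A η (P.O k') (P.slc q n k' y k' i) :=
      ((P.s_psh q k' k' i).slice hy.1).add_const _
    refine (hp j).schwarz w (fun z hz => (hB z hz.1).1) (fun c' hc' m => ?_) (fun z hz => ?_) hz hzR
    · refine ((P.R q k' i j y hy hj c' hc' (m - C - (n i - (P.ψ q k' i y).toReal))).and_eventually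
        (nhdsWithin_le_nhds (ge_mem_nhds hR))).mono fun r hr z hz => ?_
      have h3 := (abs_le.1 (hB z (by rw [mem_closedBall, dist_eq_norm, hz]; exact hr.2)).2).2
      refine (add_le_coe (add_le_coe (hr.1 z hz) le_rfl) (EReal.coe_le_coe_iff.2 h3)).trans
        (le_of_eq ?_)
      congr 1; ring
    · have h3 : z ∈ closedBall w R := by rw [mem_closedBall, dist_eq_norm, hz]
      exact (add_le_add (P.slc_le hη q n hy k' i (hB z h3).1.2) le_rfl).trans (hi z h3).le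
  refine ⟨C + 1 - P.c q * Real.log R, ?_⟩
  filter_upwards [self_mem_nhdsWithin, nhdsWithin_le_nhds (ball_mem_nhds w hR)] with z hz hzR
  have hz' := (hB z (ball_subset_closedBall hzR)).1
  rw [((P.fam_slc hη q n hy).comp hl).gl_eq hz'.2,
    ← rlim_chart (fun i => P.slc q n k' y k' (l i)) (hη j) hz'.1]
  have hc : ContinuousAt (fun z => C + 1 - P.c q * Real.log R + P.c q * Real.log ‖z - w‖) z :=
    continuousAt_const.add (continuousAt_const.mul (ContinuousAt.log (by fun_prop)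
      (norm_ne_zero_iff.2 (sub_ne_zero.2 hz))))
  refine rlim_le_of_usc (g := fun z => ((C + 1 - P.c q * Real.log R +
      P.c q * Real.log ‖z - w‖ : ℝ) : EReal))
    ((continuous_coe_real_ereal.continuousAt.comp hc).upperSemicontinuousAt)
    (inter_mem (isOpen_ne.mem_nhds hz) (isOpen_ball.mem_nhds hzR))
    ((hl.eventually h2).mono fun i hi z' hz' => (hi z' hz'.1 ?_).trans (le_of_eq ?_))
  · rw [← dist_eq_norm]; exact (mem_ball.1 hz'.2).le
  · congr 1; ring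

end Pre

end Crest.Agent.X261.Lim
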