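import Crest.Agent.X261.Psh.Loc

/-!
# Row 261, package LIM (helper58), file `A`

Families of psh functions on the members of an open cover which agree only *asymptotically*
(locally uniformly off a thin set `S`, along a filter `l`).

* `ALe l W u u'` : `u ≤ u' + o(1)` locally uniformly on `W`;
* `rlim_le_rlim` : the relaxed limits agree everywhere on the overlaps;
* `disc_max` : maximum principle along a disc covered by several members of the cover, *without*
  any a priori upper bound inside the disc.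
-/

set_option autoImplicit false
set_option linter.dupNamespace false

open Set Filter Topology Metric

noncomputable section

namespace Crest.Agent.X261.Lim

open Crest.Agent.R275.FL884 (DiscIn)
open Crest.Agent.X261.Psh

/-- `u ≤ u' + o(1)` locally uniformly on `W` along `l` -/
def ALe {ι X : Type*} [TopologicalSpace X] (l : Filter ι) (W : Set X) (u u' : ι → X → EReal) :
    Prop :=
  ∀ x ∈ W, ∀ ε : ℝ, 0 < ε → ∀ᶠ p in l ×ˢ 𝓝 x, u p.1 p.2 ≤ u' p.1 p.2 + ε

section top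

variable {ι X : Type*} [TopologicalSpace X] {l : Filter ι} {W : Set X} {u u' : ι → X → EReal}

theorem ALe.mono {W' : Set X} (h : ALe l W u u') (hW : W' ⊆ W) : ALe l W' u u' :=
  fun x hx => h x (hW hx)

theorem ALe.filter_mono {l' : Filter ι} (h : ALe l W u u') (hl : l' ≤ l) : ALe l' W u u' :=
  fun x hx ε hε => (h x hx ε hε).filter_mono (Filter.prod_mono hl le_rfl)

theorem ALe.add_const (h : ALe l W u u') (b : ι → ℝ) :
    ALe l W (fun i x => u i x + (b i : EReal)) fun i x => u' i x + (b i : EReal) := by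
  intro x hx ε hε
  filter_upwards [h x hx ε hε] with p hp
  rw [add_right_comm]
  exact add_le_add hp le_rfl

theorem ALe.rlim_le (h : ALe l W u u') {x : X} (hx : x ∈ W) : rlim l u x ≤ rlim l u' x := by
  refine le_of_forall_gt_imp_ge_of_dense fun a ha => ?_
  obtain ⟨b, h1, h2⟩ := EReal.lt_iff_exists_real_btwn.1 ha
  refine le_trans (le_coe_of_forall fun ε hε => Psh.rlim_le ?_) h2.le
  filter_upwards [h x hx ε hε, ev_lt_of_rlim_lt h1] with p hp1 hp2
  exact hp1.trans (add_le_coe hp2.le le_rfl)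

/-- pull-back along a moving family of maps -/
theorem ALe.comp {ι' Y : Type*} [TopologicalSpace Y] {l' : Filter ι'} (h : ALe l W u u')
    {j : ι' → ι} {F : ι' → Y → X} {F₀ : Y → X} {W' : Set Y} (hW : MapsTo F₀ W' W)
    (ht : ∀ y ∈ W', Tendsto (fun p : ι' × Y => (j p.1, F p.1 p.2)) (l' ×ˢ 𝓝 y) (l ×ˢ 𝓝 (F₀ y))) :
    ALe l' W' (fun i y => u (j i) (F i y)) fun i y => u' (j i) (F i y) :=
  fun y hy ε hε => (ht y hy).eventually (h _ (hW hy) ε hε)

theorem rlim_comp_le {ι' Y : Type*} [TopologicalSpace Y] {l' : Filter ι'}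
    {j : ι' → ι} {F : ι' → Y → X} {x : X} {y : Y}
    (ht : Tendsto (fun p : ι' × Y => (j p.1, F p.1 p.2)) (l' ×ˢ 𝓝 y) (l ×ˢ 𝓝 x)) :
    rlim l' (fun i y => u (j i) (F i y)) y ≤ rlim l u x :=
  le_of_forall_gt_imp_ge_of_dense fun _ ha =>
    rlim_le ((ht.eventually (ev_lt_of_rlim_lt ha)).mono fun _ hp => hp.le)

end top

variable {E : Type*} [NormedAddCommGroup E] [NormedSpace ℂ E]

/-- relaxed limits have the sub-mean value property (no bound needed) -/
theorem sub_rlim {ι : Type*} {l : Filter ι} {D : Set E} (hD : IsOpen D) {u : ι → E → EReal}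
    (h : ∀ᶠ i in l, Sub D (u i)) : Sub D (rlim l u) := by
  refine Sub.of_lt fun z v hz g hg hlt => ?_
  have h1 : ∀ᶠ q in (l ×ˢ 𝓝 z) ×ˢ 𝓝ˢ (sphere (0 : ℂ) 1), u q.1.1 (q.1.2 + q.2 • v) < g q.2 := by
    refine (isCompact_sphere (0 : ℂ) 1).mem_prod_nhdsSet_of_forall fun w hw => ?_
    obtain ⟨b, h1, h2⟩ := EReal.lt_iff_exists_real_btwn.1 (hlt w (by simpa using hw))
    have h3 : ∀ᶠ y in 𝓝 w, b < g y :=
      hg.continuousAt.eventually (lt_mem_nhds (EReal.coe_lt_coe_iff.1 h2))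
    have t : Tendsto (fun q : (ι × E) × ℂ => (q.1.1, q.1.2 + q.2 • v)) ((l ×ˢ 𝓝 z) ×ˢ 𝓝 w)
        (l ×ˢ 𝓝 (z + w • v)) :=
      (tendsto_fst.comp tendsto_fst).prodMk
        ((tendsto_snd.comp tendsto_fst).add (tendsto_snd.smul_const v))
    filter_upwards [t.eventually (ev_lt_of_rlim_lt h1), tendsto_snd.eventually h3] with q hq1 hq2
    exact hq1.trans (EReal.coe_lt_coe_iff.2 hq2)
  have h2 : ∀ᶠ y in 𝓝 z, DiscIn D y v := by
    have : ∀ᶠ q in 𝓝 z ×ˢ 𝓝ˢ (closedBall (0 : ℂ) 1), q.1 + q.2 • v ∈ D := by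
      refine (isCompact_closedBall (0 : ℂ) 1).mem_prod_nhdsSet_of_forall fun w hw => ?_
      have t : Tendsto (fun q : E × ℂ => q.1 + q.2 • v) (𝓝 z ×ˢ 𝓝 w) (𝓝 (z + w • v)) :=
        tendsto_fst.add (tendsto_snd.smul_const v)
      exact t.eventually (hD.mem_nhds (hz w (by simpa using hw)))
    obtain ⟨S, hS, V, hV, h'⟩ := eventually_prod_iff.1 this
    filter_upwards [hS] with y hy w hw
    exact h' hy (subset_of_mem_nhdsSet hV (by simpa using hw))
  obtain ⟨S, hS, V, hV, h'⟩ := eventually_prod_iff.1 h1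
  refine rlim_le ?_
  filter_upwards [hS, tendsto_fst.eventually h, tendsto_snd.eventually h2] with p hp1 hp2 hp3
  exact hp2 _ v hp3 g hg fun w hw =>
    (h' hp1 (subset_of_mem_nhdsSet hV (by simpa using hw))).le

/-- arbitrarily small circles around `x` miss `S` -/
def Circ (S : Set E) (x : E) : Prop :=
  ∀ δ : ℝ, 0 < δ → ∃ v : E, ‖v‖ < δ ∧ ∀ w : ℂ, ‖w‖ = 1 → x + w • v ∉ S

theorem circ_of_line {S : Set E} {x v : E} (h : {t : ℂ | x + t • v ∈ S}.Countable) :
    Circ S x := by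
  intro δ hδ
  have hd := (h.image fun t : ℂ => ‖t‖).dense_compl ℝ
  have hp : 0 < δ / (‖v‖ + 1) := by positivity
  obtain ⟨r, hr1, hr2⟩ := hd.inter_open_nonempty (Ioo 0 (δ / (‖v‖ + 1))) isOpen_Ioo
    (nonempty_Ioo.2 hp)
  refine ⟨(r : ℂ) • v, ?_, fun w hw hS => hr2 ⟨w * r, ?_, ?_⟩⟩
  · rw [norm_smul, Complex.norm_real, Real.norm_eq_abs, abs_of_pos hr1.1]
    have h1 := (lt_div_iff₀ (by positivity)).1 hr1.2
    nlinarith [hr1.1, norm_nonneg v]
  · simpa [mul_smul] using hS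
  · simp [hw, abs_of_pos hr1.1]

theorem circ_countable {S : Set ℂ} (h : S.Countable) (x : ℂ) : Circ S x := by
  refine circ_of_line (v := 1) (h.preimage_of_injOn (f := fun t : ℂ => x + t • (1 : ℂ)) ?_)
  intro a _ b _ hab
  simpa using hab

/-- a function with the sub-mean value property is controlled by its values off a thin set -/
theorem le_of_circ {D S : Set E} {u g : E → EReal} (hu : Sub D u) {x : E} (hD : D ∈ 𝓝 x)
    (hS : Circ S x) (hg : UpperSemicontinuousAt g x) (hle : ∀ᶠ y in 𝓝 x, y ∉ S → u y ≤ g y) :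
    u x ≤ g x := by
  refine le_of_forall_gt_imp_ge_of_dense fun a ha => ?_
  obtain ⟨b, h1, h2⟩ := EReal.lt_iff_exists_real_btwn.1 ha
  obtain ⟨δ, hδ, hB⟩ := Metric.mem_nhds_iff.1 (inter_mem hD (inter_mem hle (hg _ h1)))
  obtain ⟨v, hv, hc⟩ := hS δ hδ
  have hd : DiscIn (ball x δ) x v := fun w hw => by
    rw [mem_ball, dist_eq_norm, add_sub_cancel_left, norm_smul]
    exact lt_of_le_of_lt (mul_le_of_le_one_left (norm_nonneg _) hw) hv
  refine le_trans (hu.le_const (hd.mono fun y hy => (hB hy).1) fun w hw => ?_) h2.le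
  have := hB (hd w hw.le)
  exact (this.2.1 (hc w hw)).trans (le_of_lt this.2.2)

/-- asymptotic inequality off a thin set gives an inequality of the relaxed limits everywhere -/
theorem rlim_le_rlim {ι : Type*} {l : Filter ι} {V W S : Set E} (hV : IsOpen V) (hW : IsOpen W)
    {u u' : ι → E → EReal} (hu : ∀ᶠ i in l, Sub V (u i)) (hle : ALe l ((V ∩ W) \ S) u u')
    {x : E} (hx : x ∈ V) (hx' : x ∈ W) (hS : Circ S x) : rlim l u x ≤ rlim l u' x := by
  refine le_of_circ (sub_rlim hV hu) (hV.mem_nhds hx) hS (usc_rlim x) ?_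
  filter_upwards [hV.mem_nhds hx, hW.mem_nhds hx'] with y h1 h2 h3
  exact hle.rlim_le ⟨⟨h1, h2⟩, h3⟩

/-- one-variable form of `disc_max` -/
theorem disc1 {ι κ : Type*} {l : Filter ι} {V : κ → Set ℂ} (hV : ∀ k, IsOpen (V k))
    {f : κ → ι → ℂ → EReal} (hf : ∀ k, ∀ᶠ i in l, IsPsh (V k) (f k i)) {S : Set ℂ}
    (hS : S.Countable) (hle : ∀ k k', ALe l ((V k ∩ V k') \ S) (f k) (f k'))
    (hcov : ∀ w : ℂ, ‖w‖ ≤ 1 → ∃ k, w ∈ V k) {C : ℝ}
    (hb : ∀ w : ℂ, ‖w‖ = 1 → ∃ k, w ∈ V k ∧ rlim l (f k) w ≤ C) {k₀ : κ} {w₀ : ℂ}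
    (hw₀ : ‖w₀‖ ≤ 1) (hk₀ : w₀ ∈ V k₀) : rlim l (f k₀) w₀ ≤ C := by
  classical
  by_contra hcon
  obtain ⟨C', h1, h2⟩ := EReal.lt_iff_exists_real_btwn.1 (not_le.1 hcon)
  have h1' : C < C' := EReal.coe_lt_coe_iff.1 h1
  set ε : ℝ := (C' - C) / 2 with hε
  have hε0 : 0 < ε := by rw [hε]; linarith
  have key : ∀ w : ℂ, ‖w‖ ≤ 1 → ∃ (k : κ) (r : ℝ), 0 < r ∧ closedBall w r ⊆ V k ∧
      (closedBall w r ⊆ ball 0 1 ∨
        ∀ᶠ i in l, ∀ x ∈ closedBall w r, f k i x ≤ ((C + ε : ℝ) : EReal)) := by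
    intro w hw
    rcases hw.eq_or_lt with hw1 | hw1
    · obtain ⟨k, hk, hk'⟩ := hb w hw1
      obtain ⟨A, hA, N, hN, h'⟩ := eventually_prod_iff.1 (ev_lt_of_rlim_lt (lt_coe_add hk' hε0))
      obtain ⟨r, hr, hB⟩ := nhds_basis_closedBall.mem_iff.1 (inter_mem ((hV k).mem_nhds hk) hN)
      exact ⟨k, r, hr, fun x hx => (hB hx).1,
        Or.inr (hA.mono fun i hi x hx => (h' hi (hB hx).2).le)⟩
    · obtain ⟨k, hk⟩ := hcov w hw
      obtain ⟨r, hr, hB⟩ := nhds_basis_closedBall.mem_iff.1 (inter_mem ((hV k).mem_nhds hk)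
        (isOpen_ball.mem_nhds (show w ∈ ball (0 : ℂ) 1 by simpa using hw1)))
      exact ⟨k, r, hr, fun x hx => (hB hx).1, Or.inl fun x hx => (hB hx).2⟩
  have : Nonempty κ := ⟨k₀⟩
  choose! k r hr hrV hr2 using key
  obtain ⟨t, ht, hcv⟩ := (isCompact_closedBall (0 : ℂ) 1).elim_nhds_subcover
    (fun w => ball w (r w)) fun w hw => ball_mem_nhds w (hr w (by simpa using hw))
  have ht' : ∀ w ∈ t, ‖w‖ ≤ 1 := fun w hw => by simpa using ht w hw
  have hcv' : ∀ x : ℂ, ‖x‖ ≤ 1 → ∃ w ∈ t, x ∈ ball w (r w) := fun x hx => by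
    simpa using hcv (show x ∈ closedBall (0 : ℂ) 1 by simpa using hx)
  set b : ι → EReal := fun i => ⨆ w ∈ t, ⨆ x ∈ closedBall w (r w), f (k w) i x with hbdef
  have hleb : ∀ i, ∀ w ∈ t, ∀ x ∈ closedBall w (r w), f (k w) i x ≤ b i := fun i w hw x hx =>
    le_iSup₂_of_le w hw (le_iSup₂_of_le x hx le_rfl)
  have hbt : ∀ᶠ i in l, b i < ⊤ := by
    filter_upwards [(eventually_all_finset t).2 fun w _ => hf (k w)] with i hi
    have : ∀ w ∈ t, ∃ c : ℝ, ∀ x ∈ closedBall w (r w), f (k w) i x ≤ c := fun w hw =>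
      (hi w hw).bdd (isCompact_closedBall _ _) (hrV w (ht' w hw))
    choose! c hc using this
    refine lt_of_le_of_lt (iSup₂_le fun w hw => iSup₂_le fun x hx => (hc w hw x hx).trans
      (EReal.coe_le_coe_iff.2 ?_)) (EReal.coe_lt_top (∑ w ∈ t, |c w|))
    exact (le_abs_self _).trans
      (Finset.single_le_sum (f := fun w => |c w|) (fun _ _ => abs_nonneg _) hw)
  have hfr : ∃ᶠ i in l, (C' : EReal) < b i := by
    by_contra hn
    rw [not_frequently] at hn
    obtain ⟨w, hw, hw'⟩ := hcv' w₀ hw₀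
    have e1 := rlim_le_rlim (hV k₀) (hV (k w)) ((hf k₀).mono fun _ h => h.sub) (hle k₀ (k w)) hk₀
      (hrV w (ht' w hw) (ball_subset_closedBall hw')) (circ_countable hS _)
    have e2 : rlim l (f (k w)) w₀ ≤ C' :=
      rlim_le_of (isOpen_ball.mem_nhds hw') (hn.mono fun i hi y hy =>
        (hleb i w hw y (ball_subset_closedBall hy)).trans (not_lt.1 hi))
    exact absurd (h2.trans_le (e1.trans e2)) (lt_irrefl _)
  set l' : Filter ι := l ⊓ 𝓟 {i | (C' : EReal) < b i} with hl'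
  have hne : l'.NeBot := frequently_iff_neBot.1 hfr
  have hll : l' ≤ l := inf_le_left
  set β : ι → ℝ := fun i => (b i).toReal with hβ
  have hβe : ∀ᶠ i in l', b i = β i ∧ C' < β i := by
    filter_upwards [hbt.filter_mono hll, mem_inf_of_right (mem_principal_self _)] with i h3 h4
    have h4' : (C' : EReal) < b i := h4
    have e : b i = β i := (EReal.coe_toReal h3.ne ((EReal.bot_lt_coe _).trans h4').ne').symm
    exact ⟨e, EReal.coe_lt_coe_iff.1 (e ▸ h4')⟩
  set g : κ → ι → ℂ → EReal := fun k i x => f k i x + ((-β i : ℝ) : EReal) with hg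
  have hgs : ∀ k, ∀ᶠ i in l', Sub (V k) (g k i) := fun k =>
    ((hf k).filter_mono hll).mono fun i hi => (hi.add_const _).sub
  have hcmp : ∀ k k' x, x ∈ V k → x ∈ V k' → rlim l' (g k) x ≤ rlim l' (g k') x :=
    fun k k' x hx hx' => rlim_le_rlim (hV k) (hV k') (hgs k)
      (((hle k k').filter_mono hll).add_const _) hx hx' (circ_countable hS _)
  have hV' : ∀ w ∈ t, ball w (r w) ⊆ V (k w) := fun w hw =>
    ball_subset_closedBall.trans (hrV w (ht' w hw))
  have hout : ∀ w, (∀ᶠ i in l, ∀ x ∈ closedBall w (r w), f (k w) i x ≤ ((C + ε : ℝ) : EReal)) →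
      ∀ᶠ i in l', ∀ x ∈ closedBall w (r w), g (k w) i x ≤ ((-ε : ℝ) : EReal) := by
    intro w hw
    filter_upwards [hw.filter_mono hll, hβe] with i h3 h4 x hx
    refine add_coe_le_iff.2 ((h3 x hx).trans (EReal.coe_le_coe_iff.2 ?_))
    linarith [h4.2]
  have hF0 : ∀ w ∈ t, ∀ x ∈ ball w (r w), rlim l' (g (k w)) x ≤ ((0 : ℝ) : EReal) := by
    intro w hw x hx
    refine rlim_le_of (isOpen_ball.mem_nhds hx) (hβe.mono fun i hi y hy => ?_)
    refine add_coe_le_iff.2 ((hleb i w hw y (ball_subset_closedBall hy)).trans ?_)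
    rw [hi.1]; simp
  set Φ : ℂ → EReal := fun x => ⨅ w ∈ t, ⨅ (_ : x ∈ ball w (r w)), rlim l' (g (k w)) x with hΦ
  have hΦe : ∀ w ∈ t, ∀ x ∈ ball w (r w), rlim l' (g (k w)) x = Φ x := fun w hw x hx =>
    le_antisymm (le_iInf₂ fun w' hw' => le_iInf fun hx' =>
      hcmp _ _ x (hV' w hw hx) (hV' w' hw' hx'))
      (iInf₂_le_of_le w hw (iInf_le_of_le hx le_rfl))
  have hΦp : ∀ w ∈ t, IsPsh (ball w (r w)) Φ := fun w hw =>
    (isPsh_rlim isOpen_ball ((hgs (k w)).mono fun _ h => h.mono (hV' w hw))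
      fun x hx => (hF0 w hw x hx).trans_lt (EReal.coe_lt_top _)).congr (hΦe w hw)
  have hmax : ∀ x ∈ closedBall (0 : ℂ) 1, Φ x ≤ ((-ε : ℝ) : EReal) := by
    refine IsPsh.max1 (isCompact_closedBall _ _) (fun x hx => ?_) (IsPsh.of_nhds fun x hx => ?_)
      fun x hx hx' => ?_
    · obtain ⟨w, hw, hw'⟩ := hcv' x (by simpa using hx)
      exact ((hΦp w hw).uscAt isOpen_ball hw').upperSemicontinuousWithinAt _
    · obtain ⟨w, hw, hw'⟩ := hcv' x (by simpa using interior_subset hx)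
      exact ⟨_, isOpen_ball.mem_nhds hw', hΦp w hw⟩
    · obtain ⟨w, hw, hw'⟩ := hcv' x (by simpa using hx)
      rw [interior_closedBall _ one_ne_zero] at hx'
      rcases hr2 w (ht' w hw) with h3 | h3
      · exact absurd (h3 (ball_subset_closedBall hw')) hx'
      · rw [← hΦe w hw x hw']
        exact rlim_le_of (isOpen_ball.mem_nhds hw')
          ((hout w h3).mono fun i hi y hy => hi y (ball_subset_closedBall hy))
  have hfin : ∀ w ∈ t, ∀ᶠ i in l', ∀ x ∈ closedBall w (r w),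
      g (k w) i x ≤ ((-ε / 2 : ℝ) : EReal) := by
    intro w hw
    rcases hr2 w (ht' w hw) with h3 | h3
    · refine (hartogs' (isCompact_closedBall w (r w)) (g := fun _ => -ε / 2)
        (fun _ _ => continuousAt_const) fun x hx => ?_).mono fun i hi x hx => (hi x hx).le
      have hx1 : ‖x‖ ≤ 1 := by simpa using ball_subset_closedBall (h3 hx)
      obtain ⟨w', hw', hx'⟩ := hcv' x hx1
      refine lt_of_le_of_lt ((hcmp _ _ x (hrV w (ht' w hw) hx) (hV' w' hw' hx')).trans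
        ((hΦe w' hw' x hx').le.trans (hmax x (by simpa using hx1)))) (EReal.coe_lt_coe_iff.2 ?_)
      linarith
    · exact (hout w h3).mono fun i hi x hx =>
        (hi x hx).trans (EReal.coe_le_coe_iff.2 (by linarith))
  obtain ⟨i, hi1, hi2⟩ := (((eventually_all_finset t).2 hfin).and hβe).exists
  have : b i ≤ ((-ε / 2 - -β i : ℝ) : EReal) :=
    iSup₂_le fun w hw => iSup₂_le fun x hx => add_coe_le_iff.1 (hi1 w hw x hx)
  rw [hi2.1, EReal.coe_le_coe_iff] at this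
  linarith

/-- **maximum principle for asymptotically glued families** along a disc -/
theorem disc_max {ι κ : Type*} {l : Filter ι} {V : κ → Set E} (hV : ∀ k, IsOpen (V k))
    {u : κ → ι → E → EReal} (hu : ∀ k, ∀ᶠ i in l, IsPsh (V k) (u k i)) {S : Set E}
    (hle : ∀ k k', ALe l ((V k ∩ V k') \ S) (u k) (u k')) {z v : E}
    (hS : {w : ℂ | z + w • v ∈ S}.Countable)
    (hcov : ∀ w : ℂ, ‖w‖ ≤ 1 → ∃ k, z + w • v ∈ V k) {C : ℝ}
    (hb : ∀ w : ℂ, ‖w‖ = 1 → ∃ k, z + w • v ∈ V k ∧ rlim l (u k) (z + w • v) ≤ C) {k₀ : κ}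
    (hk₀ : z ∈ V k₀) : rlim l (u k₀) z ≤ C := by
  -- index set: pairs (chart, compact ball inside the trace of the chart)
  let J := {q : κ × ℂ × ℝ // ∀ w ∈ closedBall q.2.1 q.2.2, z + w • v ∈ V q.1}
  let l' : Filter (ι × E) := l ×ˢ 𝓝 z
  let f : J → ι × E → ℂ → EReal := fun q p w => u q.1.1 p.1 (p.2 + w • v)
  have ht : ∀ w : ℂ, Tendsto (fun p : (ι × E) × ℂ => (p.1.1, p.1.2 + p.2 • v)) (l' ×ˢ 𝓝 w)
      (l ×ˢ 𝓝 (z + w • v)) := fun w =>
    (tendsto_fst.comp tendsto_fst).prodMk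
      ((tendsto_snd.comp tendsto_fst).add (tendsto_snd.smul_const v))
  have hex : ∀ (k : κ) (w : ℂ), z + w • v ∈ V k → ∃ q : J, q.1.1 = k ∧ w ∈ ball q.1.2.1 q.1.2.2 := by
    intro k w hw
    obtain ⟨r, hr, hB⟩ := nhds_basis_closedBall.mem_iff.1
      ((continuous_disc z v).continuousAt.eventually ((hV k).mem_nhds hw))
    exact ⟨⟨(k, w, r), fun x hx => hB hx⟩, rfl, mem_ball_self hr⟩
  obtain ⟨q₀, hq₀, hq₀'⟩ := hex k₀ 0 (by simpa using hk₀)
  have main := disc1 (l := l') (V := fun q : J => ball q.1.2.1 q.1.2.2) (fun _ => isOpen_ball)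
    (f := f) (fun q => ?_) hS (fun q q' => ?_) (fun w hw => ?_) (C := C) (fun w hw => ?_)
    (k₀ := q₀) (w₀ := 0) (by simp) hq₀'
  · refine le_trans ?_ main
    have := limsup_le_rlim' (l := l') (u := f q₀) 0
    simpa [f, hq₀, rlim, l'] using this
  · have h1 : ∀ᶠ p in 𝓝 z ×ˢ 𝓝ˢ (closedBall q.1.2.1 q.1.2.2), p.1 + p.2 • v ∈ V q.1.1 := by
      refine (isCompact_closedBall _ _).mem_prod_nhdsSet_of_forall fun w hw => ?_
      have t : Tendsto (fun p : E × ℂ => p.1 + p.2 • v) (𝓝 z ×ˢ 𝓝 w) (𝓝 (z + w • v)) :=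
        tendsto_fst.add (tendsto_snd.smul_const v)
      exact t.eventually ((hV _).mem_nhds (q.2 w hw))
    obtain ⟨A, hA, N, hN, h'⟩ := eventually_prod_iff.1 h1
    filter_upwards [tendsto_fst.eventually (hu q.1.1), tendsto_snd.eventually hA] with p h2 h3
    exact (h2.line p.2 v).mono fun w hw =>
      h' h3 (subset_of_mem_nhdsSet hN (ball_subset_closedBall hw))
  · exact (hle q.1.1 q'.1.1).comp (j := fun p : ι × E => p.1) (F := fun p w => p.2 + w • v)
      (F₀ := fun w => z + w • v)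
      (fun w hw => ⟨⟨q.2 w (ball_subset_closedBall hw.1.1),
        q'.2 w (ball_subset_closedBall hw.1.2)⟩, hw.2⟩) fun w _ => ht w
  · obtain ⟨k, hk⟩ := hcov w hw
    obtain ⟨q, -, hq⟩ := hex k w hk
    exact ⟨q, hq⟩
  · obtain ⟨k, hk, hk'⟩ := hb w hw
    obtain ⟨q, hq1, hq⟩ := hex k w hk
    refine ⟨q, hq, le_trans ?_ hk'⟩
    rw [← hq1]
    exact rlim_comp_le (j := fun p : ι × E => p.1) (F := fun p w => p.2 + w • v) (ht w)

end Crest.Agent.X261.Lim
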