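import Crest.Agent.X261.Lim.Defs

/-!
# Row 261, package LIM (helper58), file `B`

Flat lemmas: extension across a pluripolar set, laws that hold at the good points only, tilting
of discs, relaxed limits in charts.
-/

set_option autoImplicit false
set_option linter.dupNamespace false

open Set Filter Topology Metric MeasureTheory

noncomputable section

namespace Crest.Agent.X261.Lim

open Crest.Agent.R275.FL884 (DiscIn)
open Crest.Agent.X261.Psh

section top

variable {ι X : Type*} [TopologicalSpace X] {l : Filter ι} {u : ι → X → EReal}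

/-- upper semicontinuous regularisation -/
def reg (f : X → EReal) (x : X) : EReal := limsup f (𝓝 x)

theorem ev_lt_reg {f : X → EReal} {x : X} {a : EReal} (h : reg f x < a) : ∀ᶠ y in 𝓝 x, f y < a :=
  eventually_lt_of_limsup_lt h

theorem reg_le {f : X → EReal} {x : X} {a : EReal} (h : ∀ᶠ y in 𝓝 x, f y ≤ a) : reg f x ≤ a :=
  limsup_le_of_le (by isBoundedDefault) h

theorem le_reg (f : X → EReal) (x : X) : f x ≤ reg f x :=
  le_of_forall_gt_imp_ge_of_dense fun _ ha => (ev_lt_reg ha).self_of_nhds.le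

theorem usc_reg (f : X → EReal) : UpperSemicontinuous (reg f) := by
  intro x a ha
  obtain ⟨b, h1, h2⟩ := exists_between ha
  filter_upwards [(ev_lt_reg h1).eventually_nhds] with y hy
  exact (reg_le (hy.mono fun _ h => h.le)).trans_lt h2

theorem reg_le_of_usc {f g : X → EReal} {x : X} (hg : UpperSemicontinuousAt g x)
    (h : ∀ᶠ y in 𝓝 x, f y ≤ g y) : reg f x ≤ g x :=
  le_of_forall_gt_imp_ge_of_dense fun a ha => reg_le (by
    filter_upwards [h, hg a ha] with y h1 h2 using (h1.trans_lt h2).le)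

theorem reg_congr {f g : X → EReal} {x : X} (h : f =ᶠ[𝓝 x] g) : reg f x = reg g x :=
  limsup_congr h

theorem reg_comp {Y : Type*} [TopologicalSpace Y] {f : X → EReal} {F : Y → X} {y : Y} {x : X}
    (h : map F (𝓝 y) = 𝓝 x) : reg (fun y => f (F y)) y = reg f x := by
  unfold reg
  rw [← h, ← limsup_comp]; rfl

theorem rlim_comp {Y : Type*} [TopologicalSpace Y] {F : Y → X} {y : Y} {x : X}
    (h : map F (𝓝 y) = 𝓝 x) : rlim l (fun i y => u i (F y)) y = rlim l u x := by
  unfold rlim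
  rw [← h, ← map_id (f := l), prod_map_map_eq, ← limsup_comp, map_id]; rfl

theorem rlim_congr {u' : ι → X → EReal} {x : X}
    (h : ∀ᶠ p in l ×ˢ 𝓝 x, u p.1 p.2 = u' p.1 p.2) : rlim l u x = rlim l u' x :=
  limsup_congr h

theorem rlim_add_le {x : X} {g : X → ℝ} (hg : ContinuousAt g x) :
    rlim l (fun i y => u i y + (g y : ℝ)) x ≤ rlim l u x + (g x : ℝ) := by
  refine le_of_forall_gt_imp_ge_of_dense fun a ha => ?_
  obtain ⟨b, h1, h2⟩ := EReal.lt_iff_exists_real_btwn.1 ha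
  obtain ⟨c, h3, h4⟩ := EReal.lt_iff_exists_real_btwn.1 (add_coe_lt_iff.1 h1)
  have h5 : g x < b - c := by have := EReal.coe_lt_coe_iff.1 h4; linarith
  refine le_trans (rlim_le ?_) h2.le
  filter_upwards [ev_lt_of_rlim_lt h3, tendsto_snd.eventually (hg.eventually (gt_mem_nhds h5))]
    with p hp1 hp2
  exact add_coe_le_iff.2 (hp1.le.trans (EReal.coe_le_coe_iff.2 (by linarith)))

theorem add_coe_neg (a : EReal) (x : ℝ) : a + (x : EReal) + ((-x : ℝ) : EReal) = a := by
  rw [add_assoc, ← EReal.coe_add]; simp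

theorem rlim_add {x : X} {g : X → ℝ} (hg : ContinuousAt g x) :
    rlim l (fun i y => u i y + (g y : ℝ)) x = rlim l u x + (g x : ℝ) := by
  refine le_antisymm (rlim_add_le hg) ?_
  have := rlim_add_le (l := l) (u := fun i y => u i y + (g y : ℝ)) hg.neg
  simp only [Pi.neg_apply, add_coe_neg] at this
  refine (add_le_add this le_rfl).trans (le_of_eq ?_)
  have e := add_coe_neg (rlim l (fun i y => u i y + (g y : ℝ)) x) (-g x)
  rwa [neg_neg] at e

theorem reg_add {f : X → EReal} {x : X} {g : X → ℝ} (hg : ContinuousAt g x) :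
    reg (fun y => f y + (g y : ℝ)) x = reg f x + (g x : ℝ) := by
  have e : ∀ f : X → EReal, reg f x = rlim (⊤ : Filter Unit) (fun _ => f) x := fun f => by
    unfold reg rlim
    rw [← map_snd_prod (⊤ : Filter Unit) (𝓝 x), ← limsup_comp, map_snd_prod]; rfl
  rw [e, e f]
  exact rlim_add hg

theorem rlim_trunc [l.NeBot] (x : X) (c : EReal) :
    rlim l (fun i y => max (u i y) c) x = max (rlim l u x) c := by
  unfold rlim
  rw [limsup_max, limsup_const]

end top

variable {E : Type*} [NormedAddCommGroup E] [NormedSpace ℂ E]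

/-- a law that holds at the good points holds at all points nearby -/
theorem ale_of_good {ι : Type*} {l : Filter ι} {V W S : Set E} (hV : IsOpen V) (hW : IsOpen W)
    {u u' : ι → E → EReal} (hu : ∀ᶠ i in l, IsPsh V (u i)) (hu' : ∀ᶠ i in l, IsPsh W (u' i))
    (hS : ∀ x, Circ S x) (h : ∀ x ∈ (V ∩ W) \ S, ∀ ε : ℝ, 0 < ε →
      ∀ᶠ p in l ×ˢ 𝓝 x, p.2 ∉ S → u p.1 p.2 ≤ u' p.1 p.2 + ε) : ALe l ((V ∩ W) \ S) u u' := by
  intro x hx ε hε
  obtain ⟨A, hA, N, hN, h'⟩ := eventually_prod_iff.1 (h x hx ε hε)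
  filter_upwards [tendsto_fst.eventually hA, tendsto_fst.eventually hu, tendsto_fst.eventually hu',
    tendsto_snd.eventually hN.eventually_nhds, tendsto_snd.eventually (hV.mem_nhds hx.1.1),
    tendsto_snd.eventually (hW.mem_nhds hx.1.2)] with p h1 h2 h3 h4 h5 h6
  exact le_of_circ (g := fun y => u' p.1 y + (ε : EReal)) h2.sub (hV.mem_nhds h5) (hS _)
    ((h3.add_const ε).uscAt hW h6) (h4.mono fun y hy => h' h1 hy)

/-- tilting a disc -/
theorem tilt {D : Set E} (hD : IsOpen D) {z v : E} (hz : DiscIn D z v) {Q : Set E} (hQ : Dense Q)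
    {δ : ℝ} (hδ : 0 < δ) : ∃ v' ∈ Q, DiscIn D z v' ∧ ‖v' - v‖ < δ := by
  have h1 : ∀ᶠ q in 𝓝 v ×ˢ 𝓝ˢ (closedBall (0 : ℂ) 1), z + q.2 • q.1 ∈ D := by
    refine (isCompact_closedBall (0 : ℂ) 1).mem_prod_nhdsSet_of_forall fun w hw => ?_
    have t : Tendsto (fun q : E × ℂ => z + q.2 • q.1) (𝓝 v ×ˢ 𝓝 w) (𝓝 (z + w • v)) :=
      tendsto_const_nhds.add (tendsto_snd.smul tendsto_fst)
    exact t.eventually (hD.mem_nhds (hz w (by simpa using hw)))
  obtain ⟨A, hA, V, hV, h'⟩ := eventually_prod_iff.1 h1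
  obtain ⟨v', h2, h3⟩ := hQ.inter_nhds_nonempty (inter_mem hA (ball_mem_nhds v hδ))
  exact ⟨v', h2, fun w hw => h' h3.1 (subset_of_mem_nhdsSet hV (by simpa using hw)),
    by simpa [dist_eq_norm] using h3.2⟩

/-- the bound on a thickened compact set spreads to the centres of the discs -/
theorem bdd_disc {ι κ : Type*} {l : Filter ι} {V : κ → Set E} (hV : ∀ k, IsOpen (V k))
    {u : κ → ι → E → EReal} (hu : ∀ k, ∀ᶠ i in l, IsPsh (V k) (u k i)) {S : Set E}
    (hle : ∀ k k', ALe l ((V k ∩ V k') \ S) (u k) (u k'))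
    (hS : ∀ z, Dense {v : E | {w : ℂ | z + w • v ∈ S}.Countable}) {C : Set E} {δ : ℝ}
    (hδ : 0 < δ) {b : ℝ} (hb : ∀ y ∈ cthickening δ C, ∃ k, y ∈ V k ∧ rlim l (u k) y ≤ b)
    {z v : E} (hz : DiscIn (⋃ k, V k) z v) (hc : ∀ w : ℂ, ‖w‖ = 1 → z + w • v ∈ C) {k₀ : κ}
    (hk₀ : z ∈ V k₀) : rlim l (u k₀) z ≤ b := by
  obtain ⟨v', h1, h2, h3⟩ := tilt (isOpen_iUnion hV) hz (hS z) hδ
  refine disc_max hV hu hle h1 (fun w hw => mem_iUnion.1 (h2 w hw)) (fun w hw => hb _ ?_) hk₀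
  refine mem_cthickening_of_dist_le _ _ _ _ (hc w hw) ?_
  rw [dist_eq_norm, add_sub_add_left_eq_sub, ← smul_sub, norm_smul, hw, one_mul]
  exact h3.le

/-- **removable singularities**: extension across a pluripolar set -/
theorem ext_plr [FiniteDimensional ℂ E] {D W : Set E} (hD : IsOpen D) (hW : IsOpen W)
    {v u : E → EReal} (hv : IsPsh D v) (hd : Dn D v) (hZ : ∀ z ∈ D, z ∉ W → v z = ⊥)
    (hu : IsPsh (D ∩ W) u) (hu0 : ∀ z ∈ D, z ∉ W → u z = ⊥)
    (hb : ∀ x ∈ D, ∃ C : ℝ, ∀ᶠ y in 𝓝 x, u y ≤ C) : IsPsh D (reg u) := by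
  borelize E
  let μ : Measure E := Measure.addHaar
  set w : ℝ → E → EReal := fun ε y => u y + (ε : EReal) * v y with hw
  have hvb : ∀ x ∈ D, ∃ C : ℝ, 0 ≤ C ∧ ∀ᶠ y in 𝓝 x, v y ≤ C := fun x hx => by
    obtain ⟨c, h1, -⟩ := EReal.lt_iff_exists_real_btwn.1 (hv.lt_top x hx)
    exact ⟨max c 0, le_max_right _ _, (hv.uscAt hD hx _ h1).mono fun y hy =>
      hy.le.trans (EReal.coe_le_coe_iff.2 (le_max_left _ _))⟩
  have h1 : ∀ ε : ℝ, 0 < ε → IsPsh D (w ε) := by
    intro ε hε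
    have hin : IsPsh (D ∩ W) (w ε) := hu.add ((hv.mono inter_subset_left).smul hε.le)
    have hbot : ∀ x ∈ D, x ∉ W → w ε x = ⊥ := fun x hx hxW => by simp [hw, hu0 x hx hxW]
    refine IsPsh.of_lsub (fun x hx => ?_) (fun x hx => ?_) fun x hx v' => ?_
    · by_cases hxW : x ∈ W
      · exact (hin.uscAt (hD.inter hW) ⟨hx, hxW⟩).upperSemicontinuousWithinAt _
      · intro a ha
        obtain ⟨b, -, h3⟩ := EReal.lt_iff_exists_real_btwn.1 ha
        obtain ⟨C, hC⟩ := hb x hx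
        have h4 : v x < (((b - C) / ε : ℝ) : EReal) := by
          rw [hZ x hx hxW]; exact EReal.bot_lt_coe _
        refine nhdsWithin_le_nhds ?_
        filter_upwards [hC, hv.uscAt hD hx _ h4] with y h5 h6
        refine lt_of_le_of_lt ((add_le_coe h5 (coe_mul_le hε.le h6.le)).trans
          (EReal.coe_le_coe_iff.2 (le_of_eq ?_))) h3
        field_simp
        ring
    · by_cases hxW : x ∈ W
      · exact hin.lt_top x ⟨hx, hxW⟩
      · rw [hbot x hx hxW]; exact bot_lt_top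
    · by_cases hxW : x ∈ W
      · exact hin.sub.freq ((hD.inter hW).mem_nhds ⟨hx, hxW⟩) v'
      · exact Frequently.of_forall fun r g _ _ => by rw [hbot x hx hxW]; exact bot_le
  have h2 : ∀ x ∈ D, rlim (𝓝[>] (0 : ℝ)) w x ≤ reg u x := by
    intro x hx
    refine le_of_forall_gt_imp_ge_of_dense fun a ha => ?_
    obtain ⟨b, h3, h4⟩ := EReal.lt_iff_exists_real_btwn.1 ha
    refine le_trans (le_coe_of_forall fun δ hδ => rlim_le ?_) h4.le
    obtain ⟨C, hC0, hC⟩ := hvb x hx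
    have t : Tendsto (fun ε : ℝ => ε * C) (𝓝[>] 0) (𝓝 0) := by
      have : Continuous fun ε : ℝ => ε * C := by fun_prop
      simpa using (this.tendsto 0).mono_left nhdsWithin_le_nhds
    filter_upwards [tendsto_fst.eventually (t.eventually (gt_mem_nhds hδ)),
      tendsto_fst.eventually self_mem_nhdsWithin, tendsto_snd.eventually hC,
      tendsto_snd.eventually (ev_lt_reg h3)] with p h5 h6 h7 h8
    exact (add_le_coe h8.le (coe_mul_le (le_of_lt h6) h7)).trans
      (EReal.coe_le_coe_iff.2 (by linarith))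
  have hrt : ∀ x ∈ D, reg u x < ⊤ := fun x hx => by
    obtain ⟨C, hC⟩ := hb x hx
    exact (reg_le hC).trans_lt (EReal.coe_lt_top _)
  have h3 : IsPsh D (rlim (𝓝[>] (0 : ℝ)) w) :=
    isPsh_rlim hD (eventually_nhdsWithin_of_forall fun ε hε => (h1 ε hε).sub)
      fun x hx => (h2 x hx).trans_lt (hrt x hx)
  have h4 : ∀ y ∈ D, v y ≠ ⊥ → u y ≤ rlim (𝓝[>] (0 : ℝ)) w y := by
    intro y hy hvy
    refine le_trans (le_of_eq ?_) (limsup_le_rlim' y)
    lift v y to ℝ using ⟨(hv.lt_top y hy).ne, hvy⟩ with a ha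
    refine (Tendsto.limsup_eq ?_).symm
    have t : Tendsto (fun ε : ℝ => ((ε * a : ℝ) : EReal)) (𝓝[>] 0) (𝓝 (0 : EReal)) := by
      have : Continuous fun ε : ℝ => ((ε * a : ℝ) : EReal) :=
        continuous_coe_real_ereal.comp (by fun_prop)
      simpa using (this.tendsto 0).mono_left nhdsWithin_le_nhds
    have t2 := (EReal.continuousAt_add (p := (u y, 0)) (Or.inr (by simp))
      (Or.inr (by simp))).tendsto.comp (tendsto_const_nhds.prodMk_nhds t)
    simp only [add_zero] at t2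
    refine t2.congr fun ε => ?_
    simp [hw, ← ha]
  have h5 : ∀ y ∈ D, u y ≤ rlim (𝓝[>] (0 : ℝ)) w y := by
    intro y hy
    by_cases hyW : y ∈ W
    · refine hu.le_of_ae_on μ (hD.inter hW) (h3.usc.mono inter_subset_left) ?_ ⟨hy, hyW⟩
      filter_upwards [hv.dn_ae μ hD hd] with z hz hz'
      exact h4 z hz'.1 (hz hz'.1)
    · rw [hu0 y hy hyW]; exact bot_le
  exact h3.congr fun x hx => le_antisymm (h2 x hx)
    (reg_le_of_usc (usc_rlim x) (mem_of_superset (hD.mem_nhds hx) h5))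

end Crest.Agent.X261.Lim
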