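import Crest.Agent.X261.Lim.B
import Crest.Agent.X261.Ans.Man0

/-!
# Row 261, package LIM (helper58), file `C`

Asymptotically glued families on a manifold: the glued limit `gl`, its plurisubharmonicity across
the bad set and across `Z`, local bounds near `Z`, invariance.
-/

set_option autoImplicit false
set_option linter.dupNamespace false
set_option linter.unusedSectionVars false

open Set Filter Topology Metric MeasureTheory

noncomputable section

namespace Crest.Agent.X261.Lim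

open Crest.Agent.R275.FL884 (DiscIn)
open Crest.Agent.X261.Psh Crest.Agent.X261.Ans
open Crest.Agent.R281.Thn_280 (STh)

variable {E : Type} [NormedAddCommGroup E] [NormedSpace ℂ E] [FiniteDimensional ℂ E]
  {M : Type} [TopologicalSpace M] {A : HA E M} {η : A.ι → E → ℝ}

theorem isOpen_ch (A : HA E M) (j : A.ι) {O : Set M} (hO : IsOpen O) : IsOpen (ch A j O) :=
  (A.e j).isOpen_inter_preimage_symm hO

theorem mem_ch {j : A.ι} {O : Set M} {x : M} (hx : x ∈ (A.e j).source) :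
    A.e j x ∈ ch A j O ↔ x ∈ O := by
  simp [ch, (A.e j).map_source hx, (A.e j).left_inv hx]

theorem ch_univ (A : HA E M) (j : A.ι) : ch A j univ = (A.e j).target := by simp [ch]

theorem map_symm {j : A.ι} {z : E} (hz : z ∈ (A.e j).target) :
    map (A.e j).symm (𝓝 z) = 𝓝 ((A.e j).symm z) := (A.e j).symm.map_nhds_eq hz

theorem tendsto_symm' {j : A.ι} {z : E} (hz : z ∈ (A.e j).target) :
    Tendsto (A.e j).symm (𝓝 z) (𝓝 ((A.e j).symm z)) := (map_symm hz).le

theorem cont_at {j : A.ι} (hη : ContinuousOn (η j) (A.e j).target) {z : E}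
    (hz : z ∈ (A.e j).target) : ContinuousAt (η j) z :=
  hη.continuousAt ((A.e j).open_target.mem_nhds hz)

theorem rlim_chart {ι : Type*} {l : Filter ι} (u : ι → M → EReal) {j : A.ι}
    (hη : ContinuousOn (η j) (A.e j).target) {z : E} (hz : z ∈ (A.e j).target) :
    rlim l (fun i z => u i ((A.e j).symm z) + (η j z : ℝ)) z =
      rlim l u ((A.e j).symm z) + (η j z : ℝ) := by
  rw [rlim_add (u := fun i z => u i ((A.e j).symm z)) (cont_at hη hz), rlim_comp (map_symm hz)]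

theorem reg_chart (f : M → EReal) {j : A.ι} (hη : ContinuousOn (η j) (A.e j).target) {z : E}
    (hz : z ∈ (A.e j).target) : reg (fun z => f ((A.e j).symm z) + (η j z : ℝ)) z =
      reg f ((A.e j).symm z) + (η j z : ℝ) := by
  rw [reg_add (f := fun z => f ((A.e j).symm z)) (cont_at hη hz), reg_comp (map_symm hz)]

theorem le_of_add_coe {a b : EReal} {x : ℝ} (h : a + x ≤ b + x) : a ≤ b := by
  have := add_le_add h (le_refl ((-x : ℝ) : EReal))
  rwa [add_coe_neg, add_coe_neg] at this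

namespace WP

variable {O O' : Set M} {ψ ψ' : M → EReal}

theorem mono (h : WP A η O ψ) (hO : O' ⊆ O) : WP A η O' ψ :=
  fun j => (h j).mono (inter_subset_inter_right _ (preimage_mono hO))

theorem congr (h : WP A η O ψ) (he : EqOn ψ ψ' O) : WP A η O ψ' :=
  fun j => (h j).congr fun z hz => by simp only [he hz.2]

theorem add_const (h : WP A η O ψ) (c : ℝ) : WP A η O fun x => ψ x + c :=
  fun j => ((h j).add_const c).congr fun z _ => by simp only [add_right_comm]

theorem lt_top (h : WP A η O ψ) {x : M} (hx : x ∈ O) : ψ x < ⊤ := by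
  obtain ⟨j, hj⟩ := A.cover x
  have := (h j).lt_top _ ((mem_ch hj).2 hx)
  rw [(A.e j).left_inv hj] at this
  by_contra hn
  rw [not_lt, top_le_iff] at hn
  simp [hn] at this

theorem usc (h : WP A η O ψ) (hη : ∀ j, ContinuousOn (η j) (A.e j).target) (hO : IsOpen O)
    {x : M} (hx : x ∈ O) : UpperSemicontinuousAt ψ x := by
  obtain ⟨j, hj⟩ := A.cover x
  have hz := (A.e j).map_source hj
  have h1 := reg_le_of_usc ((h j).uscAt (isOpen_ch A j hO) ((mem_ch hj).2 hx))
    (Eventually.of_forall fun _ => le_rfl)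
  rw [reg_chart ψ (hη j) hz, (A.e j).left_inv hj] at h1
  exact fun a ha => ev_lt_reg ((le_of_add_coe h1).trans_lt ha)

theorem bdd (h : WP A η O ψ) (hη : ∀ j, ContinuousOn (η j) (A.e j).target) (hO : IsOpen O)
    {K : Set M} (hK : IsCompact K) (hKO : K ⊆ O) : ∃ C : ℝ, ∀ x ∈ K, ψ x ≤ C :=
  exists_bound hK (fun _ hx => (h.usc hη hO (hKO hx)).upperSemicontinuousWithinAt _)
    fun _ hx => h.lt_top (hKO hx)

theorem of_nhds (h : ∀ j, ∀ z ∈ ch A j O, ∃ V ∈ 𝓝 z,
    IsPsh V fun z => ψ ((A.e j).symm z) + (η j z : ℝ)) : WP A η O ψ :=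
  fun j => IsPsh.of_nhds (h j)

/-- an `η`-psh function is controlled by its values off a thin set -/
theorem le_of_circ (h : WP A η O ψ) (hη : ∀ j, ContinuousOn (η j) (A.e j).target) (hO : IsOpen O)
    {S : Set M} (hS : ∀ j z, Circ (ch A j S) z) {x : M} (hx : x ∈ O) {g : M → EReal}
    (hg : UpperSemicontinuousAt g x) (hle : ∀ᶠ y in 𝓝 x, y ∉ S → ψ y ≤ g y) : ψ x ≤ g x := by
  obtain ⟨j, hj⟩ := A.cover x
  have hz := (A.e j).map_source hj
  have h1 := Lim.le_of_circ (g := reg fun z => g ((A.e j).symm z) + (η j z : ℝ)) (h j).sub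
    ((isOpen_ch A j hO).mem_nhds ((mem_ch hj).2 hx)) (hS j _) (usc_reg _ _) (by
      filter_upwards [(HA.tendsto_symm hj).eventually hle, HA.ev_target hj] with z h2 h3 h4
      exact (add_le_add (h2 fun h5 => h4 ⟨h3, h5⟩) le_rfl).trans
        (le_reg (fun z => g ((A.e j).symm z) + (η j z : ℝ)) z))
  rw [reg_chart g (hη j) hz, (A.e j).left_inv hj] at h1
  exact (le_of_add_coe h1).trans (reg_le_of_usc hg (Eventually.of_forall fun _ => le_rfl))

/-- on a connected manifold `-∞` is attained everywhere or on a nowhere dense set -/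
theorem dn [PreconnectedSpace M] (h : WP A η univ ψ) (h0 : ∃ x, ψ x ≠ ⊥) : Dn univ ψ := by
  have key : ∀ x, (∀ᶠ y in 𝓝 x, y ∈ closure {y | ψ y ≠ ⊥}) ∨ ∀ᶠ y in 𝓝 x, ψ y = ⊥ := by
    intro x
    obtain ⟨j, hj⟩ := A.cover x
    obtain ⟨r, hr, hB⟩ := HA.exists_ball hj univ_mem
    have hp := (h j).mono (D' := ball (A.e j x) r) hB
    by_cases hb : ∃ z ∈ ball (A.e j x) r, ψ ((A.e j).symm z) + (η j z : ℝ) ≠ ⊥
    · left
      have hd := hp.dn_of_conn isOpen_ball (convex_ball _ _).isPreconnected hb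
      rw [HA.ev_chart hj]
      filter_upwards [ball_mem_nhds _ hr] with z hz
      refine mem_closure_of_frequently_of_tendsto ?_ (tendsto_symm' (hB hz).1)
      exact (hd z hz).mono fun w hw h' => hw (by simp [h'])
    · right
      push Not at hb
      rw [HA.ev_chart hj]
      filter_upwards [ball_mem_nhds _ hr] with z hz
      simpa using hb z hz
  have hcl : IsClopen (closure {y | ψ y ≠ ⊥}) := by
    refine ⟨isClosed_closure, isOpen_iff_mem_nhds.2 fun x hx => (key x).resolve_right fun h' => ?_⟩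
    obtain ⟨y, h1, h2⟩ := ((mem_closure_iff_frequently.1 hx).and_eventually h').exists
    exact h1 h2
  obtain ⟨x, hx⟩ := h0
  exact fun y _ => mem_closure_iff_frequently.1
    ((hcl.eq_univ ⟨x, subset_closure hx⟩).ge (mem_univ y))

theorem ae_ne_bot [MeasurableSpace E] [BorelSpace E] (μ : Measure E) [μ.IsAddHaarMeasure]
    (h : WP A η univ ψ) (hd : Dn univ ψ) : Eqv.AE μ A fun x => ψ x ≠ ⊥ := by
  intro j
  have h1 : Dn (ch A j univ) fun z => ψ ((A.e j).symm z) + (η j z : ℝ) := by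
    intro z hz
    have h2 := hd _ (mem_univ ((A.e j).symm z))
    rw [← map_symm hz.1, frequently_map] at h2
    exact h2.mono fun w hw => by simpa using hw
  filter_upwards [(h j).dn_ae μ (isOpen_ch A j isOpen_univ) h1] with z hz hz' h'
  exact hz ⟨hz', mem_univ _⟩ (by simp [h'])

end WP

theorem Thin.circ {S : Set M} (h : Thin A S) (j : A.ι) (z : E) : Circ (ch A j S) z := by
  obtain ⟨v, hv⟩ := ((h j).dense_line z).nonempty
  exact circ_of_line hv

/-- the relaxed limit of an asymptotically glued family, off `Z` -/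
def gl0 {ι κ : Type*} (l : Filter ι) (O : κ → Set M) (u : κ → ι → M → EReal) (x : M) : EReal :=
  ⨆ k, ⨆ (_ : x ∈ O k), rlim l (u k) x

/-- the relaxed limit of an asymptotically glued family -/
def gl {ι κ : Type*} (l : Filter ι) (O : κ → Set M) (u : κ → ι → M → EReal) : M → EReal :=
  reg (gl0 l O u)

/-- asymptotically glued families -/
structure Fam {ι κ : Type*} (A : HA E M) (η : A.ι → E → ℝ) (l : Filter ι) (O : κ → Set M)
    (S : Set M) (u : κ → ι → M → EReal) : Prop where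
  cont : ∀ j, ContinuousOn (η j) (A.e j).target
  opn : ∀ k, IsOpen (O k)
  circ : ∀ j z, Circ (ch A j S) z
  psh : ∀ k, ∀ᶠ i in l, WP A η (O k) (u k i)
  law : ∀ k k', ∀ x ∈ (O k ∩ O k') \ S, ∀ ε : ℝ, 0 < ε →
    ∀ᶠ p in l ×ˢ 𝓝 x, p.2 ∉ S → u k p.1 p.2 ≤ u k' p.1 p.2 + ε

variable {ι κ : Type*} {l : Filter ι} {O : κ → Set M} {S : Set M} {u : κ → ι → M → EReal}

theorem gl0_bot {x : M} (hx : x ∉ ⋃ k, O k) : gl0 l O u x = ⊥ := by
  simp only [mem_iUnion, not_exists] at hx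
  simp [gl0, hx]

theorem gl0_le_gl (x : M) : gl0 l O u x ≤ gl l O u x := le_reg _ _

theorem gl_le {C : EReal} (h : ∀ x, gl0 l O u x ≤ C) (x : M) : gl l O u x ≤ C :=
  reg_le (Eventually.of_forall h)

theorem gl0_mono_filter {l' : Filter ι} (h : l' ≤ l) (x : M) : gl0 l' O u x ≤ gl0 l O u x :=
  iSup₂_mono fun _ _ => rlim_mono_filter h x

namespace Fam

theorem filter_mono (h : Fam A η l O S u) {l' : Filter ι} (hl : l' ≤ l) : Fam A η l' O S u :=
  ⟨h.cont, h.opn, h.circ, fun k => (h.psh k).filter_mono hl, fun k k' x hx ε hε =>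
    (h.law k k' x hx ε hε).filter_mono (Filter.prod_mono hl le_rfl)⟩

theorem comp (h : Fam A η l O S u) {ι' : Type*} {l' : Filter ι'} {f : ι' → ι}
    (hf : Tendsto f l' l) : Fam A η l' O S fun k i => u k (f i) :=
  ⟨h.cont, h.opn, h.circ, fun k => hf.eventually (h.psh k), fun k k' x hx ε hε =>
    (hf.prodMap tendsto_id).eventually (h.law k k' x hx ε hε)⟩

theorem add_const (h : Fam A η l O S u) (b : ι → ℝ) :
    Fam A η l O S fun k i x => u k i x + (b i : ℝ) :=
  ⟨h.cont, h.opn, h.circ, fun k => (h.psh k).mono fun _ hi => hi.add_const _,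
    fun k k' x hx ε hε => (h.law k k' x hx ε hε).mono fun p hp hS => by
      rw [add_right_comm]; exact add_le_add (hp hS) le_rfl⟩

theorem ale (h : Fam A η l O S u) (j : A.ι) (k k' : κ) :
    ALe l ((ch A j (O k) ∩ ch A j (O k')) \ ch A j S)
      (fun i z => u k i ((A.e j).symm z) + (η j z : ℝ))
      fun i z => u k' i ((A.e j).symm z) + (η j z : ℝ) := by
  refine ale_of_good (isOpen_ch A j (h.opn k)) (isOpen_ch A j (h.opn k'))
    ((h.psh k).mono fun _ hi => hi j) ((h.psh k').mono fun _ hi => hi j) (h.circ j)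
    fun z hz ε hε => ?_
  have h1 := h.law k k' _ ⟨⟨hz.1.1.2, hz.1.2.2⟩, fun h' => hz.2 ⟨hz.1.1.1, h'⟩⟩ ε hε
  filter_upwards [(tendsto_id.prodMap (tendsto_symm' hz.1.1.1)).eventually h1,
    tendsto_snd.eventually ((A.e j).open_target.mem_nhds hz.1.1.1)] with p h2 h3 h4
  rw [add_right_comm]
  exact add_le_add (h2 fun h5 => h4 ⟨h3, h5⟩) le_rfl

theorem rlim_le (h : Fam A η l O S u) {k k' : κ} {x : M} (hx : x ∈ O k) (hx' : x ∈ O k') :
    rlim l (u k) x ≤ rlim l (u k') x := by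
  obtain ⟨j, hj⟩ := A.cover x
  have hz := (A.e j).map_source hj
  have := rlim_le_rlim (isOpen_ch A j (h.opn k)) (isOpen_ch A j (h.opn k'))
    ((h.psh k).mono fun _ hi => (hi j).sub) (h.ale j k k') ((mem_ch hj).2 hx) ((mem_ch hj).2 hx')
    (h.circ j _)
  rw [rlim_chart _ (h.cont j) hz, rlim_chart _ (h.cont j) hz, (A.e j).left_inv hj] at this
  exact le_of_add_coe this

theorem gl0_eq (h : Fam A η l O S u) {k : κ} {x : M} (hx : x ∈ O k) :
    gl0 l O u x = rlim l (u k) x :=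
  le_antisymm (iSup₂_le fun _ hx' => h.rlim_le hx' hx) (le_iSup₂_of_le k hx le_rfl)

theorem gl_eq (h : Fam A η l O S u) {k : κ} {x : M} (hx : x ∈ O k) :
    gl l O u x = rlim l (u k) x :=
  le_antisymm (reg_le_of_usc (usc_rlim x) (mem_of_superset ((h.opn k).mem_nhds hx)
    fun _ hy => (h.gl0_eq hy).le)) ((h.gl0_eq hx).ge.trans (gl0_le_gl x))

/-- the glued limit is `η`-psh on all of `M` -/
theorem wp_gl (h : Fam A η l O S u) (hZ : Plr A (⋃ k, O k)ᶜ)
    (hb : ∀ x, ∃ C : ℝ, ∀ᶠ y in 𝓝 x, gl0 l O u y ≤ C) : WP A η univ (gl l O u) := by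
  refine WP.of_nhds fun j z₀ hz₀ => ?_
  obtain ⟨U, v, hU, hzU, hv, hd, hZv⟩ := hZ j z₀ hz₀.1
  have hD : IsOpen (U ∩ (A.e j).target) := hU.inter (A.e j).open_target
  refine ⟨_, hD.mem_nhds ⟨hzU, hz₀.1⟩, ?_⟩
  have hW := isOpen_ch A j (isOpen_iUnion h.opn)
  refine (ext_plr (u := fun z => gl0 l O u ((A.e j).symm z) + (η j z : ℝ)) hD hW
    (hv.mono inter_subset_left) (hd.mono inter_subset_left)
    (fun z hz hzW => hZv z hz.1 hz.2 fun h' => hzW ⟨hz.2, h'⟩) (IsPsh.of_nhds fun z hz => ?_)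
    (fun z hz hzW => ?_) fun z hz => ?_).congr fun z hz => reg_chart _ (h.cont j) hz.2
  · obtain ⟨k, hk⟩ := mem_iUnion.1 hz.2.2
    have hO := isOpen_ch A j (h.opn k)
    refine ⟨_, hO.mem_nhds ⟨hz.2.1, hk⟩, (isPsh_rlim hO ((h.psh k).mono fun _ hi => (hi j).sub)
      fun w hw => ?_).congr fun w hw => ?_⟩
    · rw [rlim_chart _ (h.cont j) hw.1, ← h.gl0_eq hw.2]
      obtain ⟨C, hC⟩ := hb ((A.e j).symm w)
      exact add_lt_top' (hC.self_of_nhds.trans_lt (EReal.coe_lt_top _)) (EReal.coe_lt_top _)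
    · rw [rlim_chart _ (h.cont j) hw.1, ← h.gl0_eq hw.2]
  · rw [gl0_bot fun h' => hzW ⟨hz.2, h'⟩]; simp
  · obtain ⟨C, hC⟩ := hb ((A.e j).symm z)
    refine ⟨C + (η j z + 1), ?_⟩
    filter_upwards [(tendsto_symm' hz.2).eventually hC,
      (cont_at (h.cont j) hz.2).eventually (gt_mem_nhds (lt_add_one _))] with w h1 h2
    exact add_le_coe h1 (EReal.coe_le_coe_iff.2 h2.le)

end Fam

/-- **local bounds**: near every point the glued limit is controlled by its values on a fixed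
compact subset of `⋃ O k`, uniformly for all families -/
theorem bdd_near (hη : ∀ j, ContinuousOn (η j) (A.e j).target) (hO : ∀ k, IsOpen (O k))
    (hZ : Dsc A (⋃ k, O k)ᶜ) (hS : Thin A S) (x₀ : M) : ∃ N ∈ 𝓝 x₀, ∃ K : Set M, IsCompact K ∧
      K ⊆ ⋃ k, O k ∧ ∃ B : ℝ, 0 ≤ B ∧ ∀ {ι : Type} {l : Filter ι} {u : κ → ι → M → EReal},
        Fam A η l O S u → ∀ C : ℝ, (∀ y ∈ K, gl0 l O u y ≤ C) →
          ∀ y ∈ N, gl0 l O u y ≤ ((C + B : ℝ) : EReal) := by
  have : ProperSpace E := FiniteDimensional.proper ℂ E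
  obtain ⟨j, hj⟩ := A.cover x₀
  have hz₀ := (A.e j).map_source hj
  set b := η j (A.e j x₀) with hb
  have h1 : ∀ᶠ z in 𝓝 (A.e j x₀), η j z ∈ Ioo (b - 1) (b + 1) :=
    (cont_at (hη j) hz₀).eventually (Ioo_mem_nhds (by linarith) (by linarith))
  obtain ⟨O', hO'1, hO'o, hO'm⟩ := _root_.mem_nhds_iff.1 h1
  obtain ⟨N, hN, C₀, hC₀, hC₁, hC₂, hd⟩ := hZ j _ hz₀ O' (hO'o.mem_nhds hO'm)
  have hW := isOpen_ch A j (isOpen_iUnion hO)
  obtain ⟨δ, hδ, hsub⟩ := hC₀.exists_cthickening_subset_open (hO'o.inter hW)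
    fun z hz => ⟨(hC₁ hz).1, (hC₁ hz).2, not_not.1 (hC₂ z hz)⟩
  refine ⟨(A.e j).source ∩ A.e j ⁻¹' (N ∩ O'), inter_mem ((A.e j).open_source.mem_nhds hj)
    (((A.e j).continuousAt hj).preimage_mem_nhds (inter_mem hN (hO'o.mem_nhds hO'm))),
    (A.e j).symm '' cthickening δ C₀, (hC₀.cthickening).image_of_continuousOn
      ((A.e j).continuousOn_symm.mono fun z hz => (hsub hz).2.1),
    by rintro _ ⟨z, hz, rfl⟩; exact (hsub hz).2.2, 2, by norm_num, ?_⟩
  intro ι l u h C hC y hy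
  by_cases hyO : y ∈ ⋃ k, O k
  swap
  · rw [gl0_bot hyO]; exact bot_le
  obtain ⟨k₀, hk₀⟩ := mem_iUnion.1 hyO
  have hz := (A.e j).map_source hy.1
  obtain ⟨v, hv1, hv2⟩ := hd _ hy.2.1 (by rw [(A.e j).left_inv hy.1]; exact not_not.2 hyO)
  have key := bdd_disc (V := fun k => ch A j (O k)) (fun k => isOpen_ch A j (hO k))
    (fun k => (h.psh k).mono fun _ hi => hi j) (h.ale j) (fun z => (hS j).dense_line z) hδ
    (b := C + (b + 1)) (C := C₀) (fun z hz => ?_) (z := A.e j y) (v := v) (fun w hw => ?_) hv2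
    ((mem_ch hy.1).2 hk₀)
  · rw [rlim_chart _ (hη j) hz, (A.e j).left_inv hy.1, ← h.gl0_eq hk₀] at key
    refine (add_coe_le_iff.1 key).trans (EReal.coe_le_coe_iff.2 ?_)
    have := (hO'1 hy.2.2).1
    linarith
  · obtain ⟨k, hk⟩ := mem_iUnion.1 (hsub hz).2.2
    refine ⟨k, ⟨(hsub hz).2.1, hk⟩, ?_⟩
    rw [rlim_chart _ (hη j) (hsub hz).2.1, ← h.gl0_eq hk]
    exact add_le_coe (hC _ ⟨z, hz, rfl⟩) (EReal.coe_le_coe_iff.2 (hO'1 (hsub hz).1).2.le)
  · obtain ⟨k, hk⟩ := mem_iUnion.1 (not_not.1 (hv1 w hw).2)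
    exact mem_iUnion.2 ⟨k, (hv1 w hw).1.2, hk⟩

/-- transport of the glued limit by a homeomorphism that permutes the family -/
theorem gl0_le_homeo (T : M ≃ₜ M) (σ : κ → κ) (hO : ∀ k, IsOpen (O k))
    (h1 : ∀ k, ∀ x ∈ O k, T x ∈ O (σ k)) (h2 : ∀ k i, ∀ x ∈ O k, u (σ k) i (T x) = u k i x)
    (x : M) : gl0 l O u x ≤ gl0 l O u (T x) := by
  refine iSup₂_le fun k hk => le_iSup₂_of_le (σ k) (h1 k x hk) (le_of_eq ?_)
  rw [← rlim_comp (T.map_nhds_eq x)]
  exact rlim_congr (tendsto_snd.eventually (((hO k).eventually_mem hk).mono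
    fun y hy => hy) |>.mono fun p hp => (h2 k p.1 p.2 hp).symm)

theorem gl_homeo (T : M ≃ₜ M) (h : ∀ x, gl0 l O u (T x) = gl0 l O u x) (x : M) :
    gl l O u (T x) = gl l O u x := by
  unfold gl
  rw [← reg_comp (T.map_nhds_eq x)]
  exact reg_congr (Eventually.of_forall h)

end Crest.Agent.X261.Lim
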