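import Crest.Agent.X261.Lim.C

/-!
# Row 261, package LIM (helper58), file `D`

Invariance and normalisation of asymptotically glued families on a cocompact `G`-manifold;
infinite convex combinations of `η`-psh functions.
-/

set_option autoImplicit false
set_option linter.dupNamespace false
set_option linter.unusedSectionVars false

open Set Filter Topology Metric MeasureTheory

noncomputable section

namespace Crest.Agent.X261.Lim

open Crest.Agent.X261.Psh Crest.Agent.X261.Ans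

section inv

variable {M : Type} [TopologicalSpace M] {G : Type} [Group G] [MulAction G M]
  [ContinuousConstSMul G M] {ι κ : Type*} {l : Filter ι} {O : κ → Set M} {u : κ → ι → M → EReal}

theorem gl0_inv (σ : G → κ → κ) (hO : ∀ k, IsOpen (O k))
    (h1 : ∀ (g : G) k, ∀ x ∈ O k, g • x ∈ O (σ g k))
    (h2 : ∀ (g : G) k i, ∀ x ∈ O k, u (σ g k) i (g • x) = u k i x) (g : G) (x : M) :
    gl0 l O u (g • x) = gl0 l O u x := by
  have key : ∀ (g : G) x, gl0 l O u x ≤ gl0 l O u (g • x) := fun g x =>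
    gl0_le_homeo (Homeomorph.smul g) (σ g) hO (h1 g) (h2 g) x
  exact le_antisymm (by simpa using key g⁻¹ (g • x)) (key g x)

theorem gl_inv (σ : G → κ → κ) (hO : ∀ k, IsOpen (O k))
    (h1 : ∀ (g : G) k, ∀ x ∈ O k, g • x ∈ O (σ g k))
    (h2 : ∀ (g : G) k i, ∀ x ∈ O k, u (σ g k) i (g • x) = u k i x) (g : G) (x : M) :
    gl l O u (g • x) = gl l O u x :=
  gl_homeo (Homeomorph.smul g) (gl0_inv σ hO h1 h2 g) x

end inv

variable {E : Type} [NormedAddCommGroup E] [NormedSpace ℂ E] [FiniteDimensional ℂ E]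
  {M : Type} [TopologicalSpace M] {A : HA E M} {η : A.ι → E → ℝ}

/-- **normalisation** -/
theorem exists_norm {G : Type} [Group G] [MulAction G M] [ContinuousConstSMul G M] {ι κ : Type}
    {l : Filter ι} {O : κ → Set M} {S : Set M} {ψ : κ → ι → M → EReal} (h : Fam A η l O S ψ)
    (hZ : Dsc A (⋃ k, O k)ᶜ) (hS : Thin A S) {K₀ : Set M} (hK₀ : IsCompact K₀)
    (hc : ∀ x : M, ∃ g : G, g • x ∈ K₀) (σ : G → κ → κ)
    (h1 : ∀ (g : G) k, ∀ x ∈ O k, g • x ∈ O (σ g k))
    (h2 : ∀ (g : G) k i, ∀ x ∈ O k, ψ (σ g k) i (g • x) = ψ k i x) {k₀ : κ} {x₀ : M}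
    (hx₀ : x₀ ∈ O k₀) (hf : ∀ᶠ i in l, ψ k₀ i x₀ ≠ ⊥) :
    ∃ n : ι → ℝ, (∀ x, gl0 l O (fun k i x => ψ k i x + (n i : ℝ)) x ≤ 0) ∧
      ∀ l' ≤ l, l'.NeBot → ∃ x, gl0 l' O (fun k i x => ψ k i x + (n i : ℝ)) x ≠ ⊥ := by
  classical
  have := HA.locallyCompact A
  choose N hN K hK hKO B hB0 hB using bdd_near h.cont h.opn hZ hS
  obtain ⟨t, -, ht⟩ := hK₀.elim_nhds_subcover N fun x _ => hN x
  have hKc : IsCompact (⋃ x ∈ t, K x) := t.isCompact_biUnion fun x _ => hK x
  have key : ∀ y ∈ ⋃ x ∈ t, K x, ∃ (k : κ) (Q : Set M), IsCompact Q ∧ y ∈ interior Q ∧ Q ⊆ O k := by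
    intro y hy
    obtain ⟨x, -, hx⟩ := mem_iUnion₂.1 hy
    obtain ⟨k, hk⟩ := mem_iUnion.1 (hKO x hx)
    obtain ⟨Q, hQ⟩ := exists_compact_subset (h.opn k) hk
    exact ⟨k, Q, hQ⟩
  have : Nonempty κ := ⟨k₀⟩
  choose! k Q hQ hQ' hQO using key
  obtain ⟨s, hs, hcv⟩ := hKc.elim_nhds_subcover (fun y => interior (Q y))
    fun y hy => isOpen_interior.mem_nhds (hQ' y hy)
  set b : ι → EReal := fun i => max (ψ k₀ i x₀) (⨆ y ∈ s, ⨆ x ∈ Q y, ψ (k y) i x) with hb
  set β : ι → ℝ := fun i => (b i).toReal with hβ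
  have hleb : ∀ i, ∀ y ∈ s, ∀ x ∈ Q y, ψ (k y) i x ≤ b i := fun i y hy x hx =>
    le_max_of_le_right (le_iSup₂_of_le y hy (le_iSup₂_of_le x hx le_rfl))
  have hβe : ∀ᶠ i in l, b i = β i := by
    filter_upwards [(eventually_all_finset s).2 fun y _ => h.psh (k y), h.psh k₀, hf]
      with i h3 h4 h5
    have : ∀ y ∈ s, ∃ c : ℝ, ∀ x ∈ Q y, ψ (k y) i x ≤ c := fun y hy =>
      (h3 y hy).bdd h.cont (h.opn _) (hQ y (hs y hy)) (hQO y (hs y hy))
    choose! c hc using this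
    refine (EReal.coe_toReal (max_lt (h4.lt_top hx₀) ?_).ne
      ((bot_lt_iff_ne_bot.2 h5).trans_le (le_max_left _ _)).ne').symm
    refine lt_of_le_of_lt (iSup₂_le fun y hy => iSup₂_le fun x hx => (hc y hy x hx).trans
      (EReal.coe_le_coe_iff.2 ?_)) (EReal.coe_lt_top (∑ y ∈ s, |c y|))
    exact (le_abs_self _).trans
      (Finset.single_le_sum (f := fun y => |c y|) (fun _ _ => abs_nonneg _) hy)
  set T : ℝ := ∑ x ∈ t, B x with hT
  have hF := h.add_const fun i => -(β i + T)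
  refine ⟨fun i => -(β i + T), fun x => ?_, fun l' hl' hne => ?_⟩
  · obtain ⟨g, hg⟩ := hc x
    rw [← gl0_inv σ h.opn h1 (fun g k i x hx => by simp only [h2 g k i x hx]) g x]
    obtain ⟨a, ha, ha'⟩ := mem_iUnion₂.1 (ht hg)
    refine (hB a hF (-T) (fun y hy => ?_) _ ha').trans ?_
    · obtain ⟨y', hy1, hy2⟩ := mem_iUnion₂.1 (hcv (mem_iUnion₂.2 ⟨a, ha, hy⟩))
      rw [hF.gl0_eq (hQO y' (hs y' hy1) (interior_subset hy2))]
      refine rlim_le_of (isOpen_interior.mem_nhds hy2) (hβe.mono fun i hi z hz => ?_)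
      refine add_coe_le_iff.2 ((hleb i y' hy1 z (interior_subset hz)).trans (le_of_eq ?_))
      rw [hi]; congr 1; ring
    · have := Finset.single_le_sum (f := B) (fun x _ => hB0 x) ha
      rw [← EReal.coe_zero, EReal.coe_le_coe_iff]
      linarith
  · by_contra hcon
    push Not at hcon
    have hF' := hF.filter_mono hl'
    have hh : ∀ (k : κ) (Q : Set M), IsCompact Q → Q ⊆ O k →
        ∀ᶠ i in l', ∀ x ∈ Q, ψ k i x ≤ ((β i - 1 : ℝ) : EReal) := by
      intro k Q hQ hQO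
      refine (hartogs' hQ (g := fun _ => -T - 1) (fun _ _ => continuousAt_const)
        (u := fun i x => ψ k i x + ((-(β i + T) : ℝ) : EReal)) fun x hx => ?_).mono
        fun i hi x hx => (add_coe_le_iff.1 (hi x hx).le).trans (le_of_eq ?_)
      · rw [← hF'.gl0_eq (hQO hx), hcon x]; exact EReal.bot_lt_coe _
      · congr 1; ring
    obtain ⟨i, ⟨h3, h4⟩, h5⟩ := ((((eventually_all_finset s).2 fun y hy =>
      hh (k y) (Q y) (hQ y (hs y hy)) (hQO y (hs y hy))).and
      (hh k₀ {x₀} isCompact_singleton (singleton_subset_iff.2 hx₀))).and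
      (hβe.filter_mono hl')).exists
    have : b i ≤ ((β i - 1 : ℝ) : EReal) :=
      max_le (h4 x₀ rfl) (iSup₂_le fun y hy => iSup₂_le fun x hx => h3 y hy x hx)
    rw [h5, EReal.coe_le_coe_iff] at this
    linarith

/-! ### infinite convex combinations -/

/-- `∑ w k * a k` for `w k ≥ 0`, `a k ≤ 0` -/
def wsum (w : ℕ → ℝ) (a : ℕ → EReal) : EReal := ⨅ N, ∑ k ∈ Finset.range N, (w k : EReal) * a k

section wsum

variable {w : ℕ → ℝ} {a : ℕ → EReal}

theorem coe_sum' {α : Type*} (s : Finset α) (f : α → ℝ) :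
    ((∑ k ∈ s, f k : ℝ) : EReal) = ∑ k ∈ s, (f k : EReal) := by
  classical
  induction s using Finset.induction_on with
  | empty => simp
  | insert a s ha ih => rw [Finset.sum_insert ha, Finset.sum_insert ha, EReal.coe_add, ih]

theorem wterm_le (hw : ∀ k, 0 ≤ w k) (ha : ∀ k, a k ≤ 0) (k : ℕ) : (w k : EReal) * a k ≤ 0 :=
  mul_nonpos_of_nonneg_of_nonpos (EReal.coe_nonneg.2 (hw k)) (ha k)

theorem wsum_anti (hw : ∀ k, 0 ≤ w k) (ha : ∀ k, a k ≤ 0) :
    Antitone fun N => ∑ k ∈ Finset.range N, (w k : EReal) * a k :=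
  antitone_nat_of_succ_le fun N => by
    rw [Finset.sum_range_succ]
    exact (add_le_add le_rfl (wterm_le hw ha N)).trans (add_zero _).le

theorem tendsto_wsum (hw : ∀ k, 0 ≤ w k) (ha : ∀ k, a k ≤ 0) :
    Tendsto (fun N => ∑ k ∈ Finset.range N, (w k : EReal) * a k) atTop (𝓝 (wsum w a)) :=
  tendsto_atTop_iInf (wsum_anti hw ha)

theorem wsum_le_zero : wsum w a ≤ 0 := iInf_le_of_le 0 (by simp)

theorem wsum_le (hw : ∀ k, 0 ≤ w k) (ha : ∀ k, a k ≤ 0) (k : ℕ) : wsum w a ≤ w k * a k := by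
  refine iInf_le_of_le (k + 1) ?_
  rw [Finset.sum_range_succ]
  exact (add_le_add (Finset.sum_nonpos fun j _ => wterm_le hw ha j) le_rfl).trans (zero_add _).le

theorem coe_mul_add {c : ℝ} (hc : 0 ≤ c) (x y : EReal) : (c : EReal) * (x + y) = c * x + c * y :=
  EReal.left_distrib_of_nonneg_of_ne_top (EReal.coe_nonneg.2 hc) (EReal.coe_ne_top c) x y

theorem tendsto_add' {α : Type*} {l : Filter α} {f g : α → EReal} {x y : EReal} (hx : x ≠ ⊤)
    (hy : y ≠ ⊤) (hf : Tendsto f l (𝓝 x)) (hg : Tendsto g l (𝓝 y)) :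
    Tendsto (fun i => f i + g i) l (𝓝 (x + y)) :=
  (EReal.continuousAt_add (p := (x, y)) (Or.inl hx) (Or.inr hy)).tendsto.comp (hf.prodMk_nhds hg)

theorem wsum_add {b : ℕ → EReal} (hw : ∀ k, 0 ≤ w k) (ha : ∀ k, a k ≤ 0) (hb : ∀ k, b k ≤ 0) :
    wsum w (fun k => a k + b k) = wsum w a + wsum w b := by
  refine tendsto_nhds_unique (tendsto_wsum hw fun k => add_nonpos (ha k) (hb k))
    ((tendsto_add' (wsum_le_zero.trans_lt EReal.zero_lt_top).ne
      (wsum_le_zero.trans_lt EReal.zero_lt_top).ne (tendsto_wsum hw ha)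
      (tendsto_wsum hw hb)).congr fun N => ?_)
  rw [← Finset.sum_add_distrib]
  exact Finset.sum_congr rfl fun k _ => (coe_mul_add (hw k) _ _).symm

theorem wsum_single (hw : ∀ k, 0 ≤ w k) (k : ℕ) {x : EReal} (hx : x ≤ 0) :
    wsum w (fun j => if j = k then x else 0) = w k * x := by
  refine tendsto_nhds_unique (tendsto_wsum hw fun j => by split_ifs; exacts [hx, le_rfl])
    (tendsto_const_nhds.congr' ?_)
  filter_upwards [eventually_gt_atTop k] with N hN
  rw [Finset.sum_eq_single k (fun j _ hj => by simp [hj]) (fun h => absurd (by simpa using hN) h)]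
  simp

theorem wsum_const (hw : ∀ k, 0 ≤ w k) (h1 : HasSum w 1) {c : ℝ} (hc : c ≤ 0) :
    wsum w (fun _ => (c : EReal)) = c := by
  refine tendsto_nhds_unique (tendsto_wsum hw fun _ => EReal.coe_nonpos.2 hc) ?_
  have := (continuous_coe_real_ereal.tendsto _).comp (h1.tendsto_sum_nat.mul_const c)
  rw [one_mul] at this
  refine this.congr fun N => ?_
  simp only [Function.comp, Finset.sum_mul, coe_sum', EReal.coe_mul]

theorem exists_weights (ha : ∀ k, a k ≤ 0) (hb : ∀ k, a k ≠ ⊥) :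
    ∃ w : ℕ → ℝ, (∀ k, 0 < w k) ∧ HasSum w 1 ∧ wsum w a ≠ ⊥ := by
  set r : ℕ → ℝ := fun k => (a k).toReal with hr
  have hra : ∀ k, a k = r k := fun k =>
    (EReal.coe_toReal ((ha k).trans_lt EReal.zero_lt_top).ne (hb k)).symm
  set c : ℕ → ℝ := fun k => (1 / 2) ^ k / (1 + |r k|) with hc
  have hc0 : ∀ k, 0 < c k := fun k => by positivity
  have hc1 : ∀ k, c k ≤ (1 / 2) ^ k := fun k =>
    div_le_self (by positivity) (by linarith [abs_nonneg (r k)])
  have hs : Summable c := Summable.of_nonneg_of_le (fun k => (hc0 k).le) hc1 summable_geometric_two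
  have hT : 0 < ∑' k, c k := hs.tsum_pos (fun k => (hc0 k).le) 0 (hc0 0)
  refine ⟨fun k => c k / ∑' k, c k, fun k => div_pos (hc0 k) hT, ?_, ?_⟩
  · have := hs.hasSum.div_const (∑' k, c k)
    rwa [div_self hT.ne'] at this
  · refine ne_of_gt (lt_of_lt_of_le (EReal.bot_lt_coe (-(2 / ∑' k, c k))) (le_iInf fun N => ?_))
    simp only [hra, ← EReal.coe_mul, ← coe_sum', EReal.coe_le_coe_iff]
    have h1 : ∀ k, -((1 / 2) ^ k / ∑' k, c k) ≤ c k / (∑' k, c k) * r k := fun k => by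
      rw [div_mul_eq_mul_div, ← neg_div]
      refine div_le_div_of_nonneg_right ?_ hT.le
      have h2 : c k * (1 + |r k|) = (1 / 2) ^ k := div_mul_cancel₀ _ (by positivity)
      nlinarith [neg_abs_le (r k), hc0 k]
    refine le_trans ?_ (Finset.sum_le_sum fun k _ => h1 k)
    rw [Finset.sum_neg_distrib, ← Finset.sum_div, neg_le_neg_iff]
    exact div_le_div_of_nonneg_right (sum_geometric_two_le N) hT.le

end wsum

theorem wp_wsum (hη : ∀ j, ContinuousOn (η j) (A.e j).target) {w : ℕ → ℝ} (hw : ∀ k, 0 ≤ w k)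
    (h1 : HasSum w 1) {f : ℕ → M → EReal} (hf : ∀ k, WP A η univ (f k))
    (h0 : ∀ k x, f k x ≤ 0) : WP A η univ fun x => wsum w fun k => f k x := by
  refine WP.of_nhds fun j z₀ hz₀ => ?_
  set C := η j z₀ + 1 with hC
  have h2 : ∀ᶠ z in 𝓝 z₀, z ∈ ch A j univ ∧ η j z < C :=
    (Eventually.and ((isOpen_ch A j isOpen_univ).mem_nhds hz₀)
      ((cont_at (hη j) hz₀.1).eventually (gt_mem_nhds (lt_add_one _))))
  refine ⟨_, h2, ?_⟩
  have h3 : ∀ k, ∀ z, η j z < C →
      f k ((A.e j).symm z) + (η j z : ℝ) + ((-C : ℝ) : EReal) ≤ 0 := fun k z hz => by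
    rw [add_assoc, ← EReal.coe_add]
    exact add_nonpos (h0 k _) (EReal.coe_nonpos.2 (by linarith))
  refine ((IsPsh.iInf_antitone (f := fun N z => ∑ k ∈ Finset.range N,
    (w k : EReal) * (f k ((A.e j).symm z) + (η j z : ℝ) + ((-C : ℝ) : EReal)))
    (fun N => IsPsh.sum _ fun k _ => (((hf k j).mono fun z hz => hz.1).add_const _).smul (hw k))
    fun z hz => wsum_anti hw fun k => h3 k z hz.2).add_const C).congr fun z hz => ?_
  have e : ⨅ N, ∑ k ∈ Finset.range N,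
      (w k : EReal) * (f k ((A.e j).symm z) + (η j z : ℝ) + ((-C : ℝ) : EReal)) =
      wsum w fun k => f k ((A.e j).symm z) + ((η j z + -C : ℝ) : EReal) := by
    simp only [wsum, add_assoc, EReal.coe_add]
  have h4 : η j z + -C ≤ 0 := by linarith [hz.2]
  simp only [e]
  rw [wsum_add hw (fun k => h0 k _) fun _ => EReal.coe_nonpos.2 h4, wsum_const hw h1 h4,
    add_assoc, ← EReal.coe_add]
  congr 2; ring

end Crest.Agent.X261.Lim
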