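import Crest.Agent.X261.Lim.B

/-!
# Row 261, package LIM (helper58), file `L`

`L¹_loc` convergence of locally bounded psh functions to their relaxed limit along an ultrafilter.
-/

set_option autoImplicit false
set_option linter.dupNamespace false
set_option linter.unusedSectionVars false

open Set Filter Topology Metric MeasureTheory
open scoped ENNReal

noncomputable section

namespace Crest.Agent.X261.Lim

open Crest.Agent.X261.Psh

variable {E : Type*} [NormedAddCommGroup E] [NormedSpace ℂ E] [FiniteDimensional ℂ E]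
  [MeasurableSpace E] [BorelSpace E] (μ : Measure E) [μ.IsAddHaarMeasure]

theorem fubini_ball {h : E → ℝ≥0∞} (hm : Measurable h) {K L : Set E} (hK : MeasurableSet K)
    (_hL : MeasurableSet L) {r : ℝ} (hKL : ∀ y ∈ K, ball y r ⊆ L) :
    μ (ball 0 r) * ∫⁻ y in K, h y ∂μ ≤ ∫⁻ w in L, ∫⁻ y in ball w r, h y ∂μ ∂μ := by
  have : ProperSpace E := FiniteDimensional.proper ℂ E
  have hS : MeasurableSet {p : E × E | dist p.1 p.2 < r} :=
    (isOpen_lt continuous_dist continuous_const).measurableSet
  have hF : Measurable fun p : E × E => {p : E × E | dist p.1 p.2 < r}.indicator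
      (fun p => h p.1) p := (hm.comp measurable_fst).indicator hS
  calc μ (ball 0 r) * ∫⁻ y in K, h y ∂μ
      = ∫⁻ y in K, ∫⁻ w in L, {p : E × E | dist p.1 p.2 < r}.indicator (fun p => h p.1) (y, w)
          ∂μ ∂μ := by
        rw [← lintegral_const_mul _ hm]
        refine setLIntegral_congr_fun hK fun y hy => ?_
        have e : (fun w => {p : E × E | dist p.1 p.2 < r}.indicator (fun p => h p.1) (y, w)) =
            (ball y r).indicator fun _ => h y := by
          funext w
          simp only [indicator, mem_ofPred_eq, mem_ball, dist_comm]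
        simp only [e]
        rw [lintegral_indicator measurableSet_ball, Measure.restrict_restrict measurableSet_ball,
          inter_eq_left.2 (hKL y hy), setLIntegral_const, Measure.addHaar_ball_center μ y, mul_comm]
    _ = ∫⁻ w in L, ∫⁻ y in K, {p : E × E | dist p.1 p.2 < r}.indicator (fun p => h p.1) (y, w)
          ∂μ ∂μ := lintegral_lintegral_swap hF.aemeasurable
    _ ≤ _ := by
        refine lintegral_mono fun w => (setLIntegral_le_lintegral _ _).trans (le_of_eq ?_)
        rw [← lintegral_indicator measurableSet_ball]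
        rfl

variable {ι : Type*} {D : Set E} {f : ι → E → ℝ} {g : E → ℝ}

/-- uniform upper bound for the ball means of `C - f i` -/
theorem ev_ball_le (U : Ultrafilter ι) (hD : IsOpen D)
    (hf : ∀ i, IsPsh D fun z => (f i z : EReal))
    (hg : ∀ z ∈ D, rlim U (fun i z => (f i z : EReal)) z = g z) {L L' : Set E} (hL : IsCompact L)
    (hLD : L' ⊆ D) {C r r' : ℝ} (hr : 0 < r) (hrr : r' < r)
    (hLL : ∀ z ∈ L, ball z (2 * r) ⊆ L') (hC : ∀ᶠ i in U, ∀ z ∈ L', f i z ≤ C) {η : ℝ≥0∞}
    (hη : η ≠ 0) (hr' : 0 < r') : ∀ᶠ i in U, ∀ w ∈ L,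
      ∫⁻ y in ball w r', ENNReal.ofReal (C - f i y) ∂μ ≤
        μ (ball 0 r) * ENNReal.ofReal (C - g w) + η := by
  have : ProperSpace E := FiniteDimensional.proper ℂ E
  have hm0 : μ (ball (0 : E) r) ≠ 0 := (measure_ball_pos μ _ hr).ne'
  have hmt : μ (ball (0 : E) r) ≠ ⊤ := measure_ball_lt_top.ne
  set ρ := (r - r') / 4 with hρ
  have hρ0 : 0 < ρ := by rw [hρ]; linarith
  have key : ∀ᶠ p in (U : Filter ι) ×ˢ 𝓝ˢ L,
      ∫⁻ y in ball p.2 r', ENNReal.ofReal (C - f p.1 y) ∂μ ≤
        μ (ball 0 r) * ENNReal.ofReal (C - g p.2) + η := by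
    refine hL.mem_prod_nhdsSet_of_forall fun z hz => ?_
    set I : ι → ℝ≥0∞ := fun i => ∫⁻ y in ball z (r' + ρ), ENNReal.ofReal (C - f i y) ∂μ with hI
    obtain ⟨ν, -, hν⟩ := isCompact_univ.ultrafilter_le_nhds (U.map I) (by simp)
    have hν' : Tendsto I U (𝓝 ν) := hν
    have h1 : ∀ w ∈ ball z ρ, ν ≤ μ (ball 0 r) * ENNReal.ofReal (C - g w) := by
      intro w hw
      have hwD : w ∈ D := hLD (hLL z hz (ball_subset_ball (by linarith) hw))
      refine le_of_forall_lt_imp_le_of_dense fun t ht => ?_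
      have htt : t ≠ ⊤ := ht.ne_top
      have h2 : (g w : EReal) ≤ ((C - (t / μ (ball 0 r)).toReal : ℝ) : EReal) := by
        rw [← hg w hwD]
        refine rlim_le_of (ball_mem_nhds w hρ0) ?_
        filter_upwards [hν'.eventually (lt_mem_nhds ht), hC] with i h3 h4 y hy
        have hyz : dist y z < 2 * ρ := by
          have := dist_triangle y w z
          rw [mem_ball] at hy hw
          linarith
        have h5 : ball y r ⊆ L' := (ball_subset_ball' (by linarith)).trans (hLL z hz)
        have h6 := (hf i).lint_ball μ hD (h5.trans hLD) (C := C)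
          fun x hx => EReal.coe_le_coe_iff.2 (h4 x (h5 hx))
        simp only [cst_eq_ofReal (EReal.coe_ne_bot _) (EReal.coe_ne_top _), EReal.toReal_coe] at h6
        rw [Measure.addHaar_ball_center μ y] at h6
        have h7 : t ≤ μ (ball 0 r) * ENNReal.ofReal (C - f i y) :=
          h3.le.trans ((lintegral_mono_set (ball_subset_ball' (by
            rw [dist_comm]; linarith))).trans h6)
        have h8 := ENNReal.toReal_mono ENNReal.ofReal_ne_top (ENNReal.div_le_of_le_mul' h7)
        rw [ENNReal.toReal_ofReal (sub_nonneg.2 (h4 y (h5 (mem_ball_self hr))))] at h8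
        exact EReal.coe_le_coe_iff.2 (by linarith)
      have h3 : t / μ (ball 0 r) ≤ ENNReal.ofReal (C - g w) := by
        rw [← ENNReal.ofReal_toReal (ENNReal.div_ne_top htt hm0)]
        exact ENNReal.ofReal_le_ofReal (by linarith [EReal.coe_le_coe_iff.1 h2])
      rwa [ENNReal.div_le_iff_le_mul (Or.inl hm0) (Or.inl hmt), mul_comm] at h3
    have hνt : ν ≠ ⊤ := ((h1 z (mem_ball_self hρ0)).trans_lt
      (ENNReal.mul_lt_top hmt.lt_top ENNReal.ofReal_lt_top)).ne
    filter_upwards [tendsto_fst.eventually (hν'.eventually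
      (gt_mem_nhds (ENNReal.lt_add_right hνt hη))), tendsto_snd.eventually (ball_mem_nhds z hρ0)]
      with p h2 h3
    refine (lintegral_mono_set (ball_subset_ball' ?_)).trans
      (h2.le.trans (add_le_add (h1 _ h3) le_rfl))
    linarith [mem_ball.1 h3]
  obtain ⟨S, hS, V, hV, h'⟩ := eventually_prod_iff.1 key
  exact hS.mono fun i hi w hw => h' hi (subset_of_mem_nhdsSet hV hw)

theorem ev_pos_le {l : Filter ι} (hg : ∀ z ∈ D, rlim l (fun i z => (f i z : EReal)) z = g z)
    {K : Set E} (hK : IsCompact K) (hKD : K ⊆ D) (hgm : AEMeasurable g (μ.restrict K)) {c : ℝ}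
    (hc : ∀ z ∈ K, c ≤ g z) {η : ℝ≥0∞} (hη : 0 < η) :
    ∀ᶠ i in l, ∫⁻ z in K, ENNReal.ofReal (f i z - g z) ∂μ ≤ η := by
  obtain ⟨γ, h1, h2, h3, h4⟩ := exists_cont_seq hK (f := rlim l fun i z => (f i z : EReal))
    (usc_rlim.upperSemicontinuousOn K) fun z hz => by rw [hg z (hKD hz)]; exact EReal.coe_lt_top _
  obtain ⟨B, hB⟩ := hK.exists_bound_of_continuousOn (h1 0).continuousOn
  have h5 : Tendsto (fun k : ℕ => ∫⁻ z in K, ENNReal.ofReal (γ k z + 1 / (k + 1) - g z) ∂μ) atTop
      (𝓝 (∫⁻ _ in K, 0 ∂μ)) := by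
    refine tendsto_lintegral_of_dominated_convergence' (fun _ => ENNReal.ofReal (B + 1 - c))
      (fun k => ((((h1 k).measurable.add_const _).aemeasurable).sub hgm).ennreal_ofReal)
      (fun k => (ae_restrict_iff' hK.measurableSet).2 (Eventually.of_forall fun z hz =>
        ENNReal.ofReal_le_ofReal ?_)) ?_
      ((ae_restrict_iff' hK.measurableSet).2 (Eventually.of_forall fun z hz => ?_))
    · have e1 : γ k z ≤ γ 0 z := h2 z (Nat.zero_le k)
      have e2 := (abs_le.1 (hB z hz)).2
      have e3 : (1 : ℝ) / (k + 1) ≤ 1 := div_le_one_of_le₀ (by linarith [k.cast_nonneg (α := ℝ)])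
        (by positivity)
      linarith [hc z hz]
    · rw [setLIntegral_const]
      exact ENNReal.mul_ne_top ENNReal.ofReal_ne_top hK.measure_lt_top.ne
    · have t1 : Tendsto (fun k => γ k z) atTop (𝓝 (g z)) := tendsto_order.2
        ⟨fun a ha => Eventually.of_forall fun k => ha.trans_le (EReal.coe_le_coe_iff.1
          ((hg z (hKD hz)).ge.trans (h3 k z hz))),
        fun a ha => h4 z hz a (by rw [hg z (hKD hz)]; exact EReal.coe_lt_coe_iff.2 ha)⟩
      have t2 := ENNReal.tendsto_ofReal
        ((t1.add tendsto_one_div_add_atTop_nhds_zero_nat).sub_const (g z))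
      simpa using t2
  rw [lintegral_zero] at h5
  obtain ⟨k, hk⟩ := (h5.eventually (gt_mem_nhds hη)).exists
  filter_upwards [hartogs' hK (g := fun z => γ k z + 1 / (k + 1)) (l := l)
    (u := fun i z => (f i z : EReal)) (fun z _ => ((h1 k).add continuous_const).continuousAt)
    fun z hz => lt_coe_add (h3 k z hz) (by positivity)] with i hi
  refine le_trans (setLIntegral_mono' hK.measurableSet fun z hz => ENNReal.ofReal_le_ofReal ?_) hk.le
  linarith [EReal.coe_lt_coe_iff.1 (hi z hz)]

theorem ev_neg_le (U : Ultrafilter ι) (hD : IsOpen D)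
    (hf : ∀ i, IsPsh D fun z => (f i z : EReal))
    (hg : ∀ z ∈ D, rlim U (fun i z => (f i z : EReal)) z = g z) {K : Set E} (hK : IsCompact K)
    {δ : ℝ} (hδ : 0 < δ) (hKD : cthickening (3 * δ) K ⊆ D) {c C : ℝ} (hc : ∀ z ∈ D, c ≤ g z)
    (hC : ∀ᶠ i in U, ∀ z ∈ cthickening (3 * δ) K, f i z ≤ C) {b : ℝ≥0∞}
    (hb : ∫⁻ z in K, ENNReal.ofReal (C - g z) ∂μ < b) :
    ∀ᶠ i in U, ∫⁻ z in K, ENNReal.ofReal (C - f i z) ∂μ ≤ b := by
  have : ProperSpace E := FiniteDimensional.proper ℂ E
  let _ : NormedSpace ℝ E := NormedSpace.complexToReal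
  have : FiniteDimensional ℝ E := FiniteDimensional.of_locallyCompactSpace ℝ
  set I := ∫⁻ z in K, ENNReal.ofReal (C - g z) ∂μ with hI
  obtain ⟨b₁, h1, h2⟩ := exists_between hb
  obtain ⟨b₂, h3, h4⟩ := exists_between h2
  have hKt := hK.measure_lt_top (μ := μ)
  -- the thickening
  have t1 : Tendsto (fun r => I + ENNReal.ofReal (C - c) * (μ (cthickening r K) - μ K)) (𝓝 0)
      (𝓝 (I + ENNReal.ofReal (C - c) * (μ K - μ K))) :=
    tendsto_const_nhds.add (ENNReal.Tendsto.const_mul (ENNReal.Tendsto.sub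
      (tendsto_measure_cthickening_of_isCompact hK) tendsto_const_nhds (Or.inl hKt.ne))
      (Or.inr ENNReal.ofReal_ne_top))
  rw [tsub_self, mul_zero, add_zero] at t1
  obtain ⟨r, ⟨h5, h6⟩, hr⟩ := ((((t1.eventually (gt_mem_nhds h1)).and
    (gt_mem_nhds hδ)).filter_mono nhdsWithin_le_nhds).and
      (self_mem_nhdsWithin (s := Ioi (0 : ℝ)))).exists
  have hr0 : 0 < r := hr
  have hsub : cthickening r K ⊆ cthickening (3 * δ) K := cthickening_mono (by linarith) K
  have h7 : ∫⁻ z in cthickening r K, ENNReal.ofReal (C - g z) ∂μ ≤ b₁ := by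
    refine le_trans ?_ h5.le
    refine ((lintegral_mono_set (union_sdiff_cancel (self_subset_cthickening (δ := r) K)).ge).trans
      (lintegral_union_le _ _ _)).trans (add_le_add le_rfl ?_)
    rw [← measure_sdiff (self_subset_cthickening K) hK.measurableSet.nullMeasurableSet hKt.ne,
      ← setLIntegral_const]
    exact setLIntegral_mono' (isClosed_cthickening.measurableSet.diff hK.measurableSet)
      fun z hz => ENNReal.ofReal_le_ofReal (by linarith [hc z (hKD (hsub hz.1))])
  -- the smaller radius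
  have hm0 : μ (ball (0 : E) r) ≠ 0 := (measure_ball_pos μ _ hr0).ne'
  have hmt : μ (ball (0 : E) r) ≠ ⊤ := measure_ball_lt_top.ne
  have t2 : Tendsto (fun s : ℝ => μ (ball (0 : E) s) * b₂) (𝓝 r) (𝓝 (μ (ball 0 r) * b₂)) := by
    refine ENNReal.Tendsto.mul_const ?_ (Or.inl hm0)
    have e : ∀ s : ℝ, 0 < s → μ (ball (0 : E) s) =
        ENNReal.ofReal (s ^ Module.finrank ℝ E) * μ (ball 0 1) :=
      fun s hs => Measure.addHaar_ball_of_pos μ 0 hs
    rw [e r hr0]
    refine (ENNReal.Tendsto.mul_const (ENNReal.tendsto_ofReal ((continuous_pow _).tendsto r))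
      (Or.inr measure_ball_lt_top.ne)).congr' ?_
    filter_upwards [lt_mem_nhds hr0] with s hs using (e s hs).symm
  obtain ⟨s, ⟨h8, hs0⟩, hs⟩ := ((((t2.eventually (lt_mem_nhds
    (ENNReal.mul_lt_mul_right hm0 hmt h3))).and (lt_mem_nhds hr0)).filter_mono
      nhdsWithin_le_nhds).and (self_mem_nhdsWithin (s := Iio r))).exists
  have hn0 : μ (ball (0 : E) s) ≠ 0 := (measure_ball_pos μ _ hs0).ne'
  have hnt : μ (ball (0 : E) s) ≠ ⊤ := measure_ball_lt_top.ne
  have hLt : μ (cthickening r K) ≠ ⊤ := hK.cthickening.measure_lt_top.ne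
  obtain ⟨η, hη0, hη⟩ := ENNReal.exists_nnreal_pos_mul_lt hLt
    (b := μ (ball (0 : E) s) * (b - b₂)) (mul_ne_zero hn0 (tsub_pos_of_lt h4).ne')
  filter_upwards [ev_ball_le μ U hD hf hg hK.cthickening hKD hr0 hs (fun z hz =>
    (ball_subset_closedBall.trans (closedBall_subset_cthickening hz _)).trans
      ((cthickening_cthickening_subset (by linarith) hr0.le K).trans
        (cthickening_mono (by linarith) K))) hC (η := η) (by simpa using hη0.ne') hs0] with i hi
  obtain ⟨f', hf'm, hf'⟩ := exists_meas hD (hf i).usc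
  have hm : Measurable fun z => ENNReal.ofReal (C - (f' z).toReal) :=
    (measurable_const.sub hf'm.ereal_toReal).ennreal_ofReal
  have he : ∀ z ∈ D, ENNReal.ofReal (C - (f' z).toReal) = ENNReal.ofReal (C - f i z) :=
    fun z hz => by rw [← hf' hz, EReal.toReal_coe]
  have h9 := fubini_ball μ hm hK.measurableSet isClosed_cthickening.measurableSet (r := s)
    (L := cthickening r K) fun y hy => (ball_subset_ball hs.le).trans
      (ball_subset_closedBall.trans (closedBall_subset_cthickening hy _))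
  rw [setLIntegral_congr_fun hK.measurableSet
    fun z hz => he z (hKD (self_subset_cthickening K hz))] at h9
  refine (ENNReal.mul_le_mul_iff_right hn0 hnt).1 (h9.trans ?_)
  calc ∫⁻ w in cthickening r K, ∫⁻ y in ball w s, ENNReal.ofReal (C - (f' y).toReal) ∂μ ∂μ
      ≤ ∫⁻ w in cthickening r K, (μ (ball 0 r) * ENNReal.ofReal (C - g w) + η) ∂μ := by
        refine setLIntegral_mono' isClosed_cthickening.measurableSet fun w hw => ?_
        rw [setLIntegral_congr_fun measurableSet_ball fun y hy => he y (hKD ?_)]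
        · exact hi w hw
        · exact ((cthickening_cthickening_subset hs0.le hr0.le K).trans
            (cthickening_mono (by linarith [hs]) K))
            (closedBall_subset_cthickening hw _ (ball_subset_closedBall hy))
    _ ≤ μ (ball 0 r) * b₁ + η * μ (cthickening r K) := by
        rw [lintegral_add_right _ measurable_const, lintegral_const_mul' _ _ hmt,
          setLIntegral_const]
        exact add_le_add (mul_le_mul_right h7 _) le_rfl
    _ ≤ μ (ball 0 s) * b₂ + μ (ball 0 s) * (b - b₂) := add_le_add h8.le hη.le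
    _ = μ (ball 0 s) * b := by rw [← mul_add, add_tsub_cancel_of_le h4.le]

/-- **`L¹` convergence** of the truncations along an ultrafilter -/
theorem l1_tr (U : Ultrafilter ι) (hD : IsOpen D) {u : ι → E → EReal}
    (hu : ∀ i, IsPsh D (u i)) (hb : ∀ x ∈ D, rlim U u x < ⊤) {K : Set E} (hK : IsCompact K)
    (hKD : K ⊆ D) (c : ℝ) :
    Tendsto (fun i => ∫⁻ z in K, ‖tr c (u i z) - tr c (rlim U u z)‖ₑ ∂μ) U (𝓝 0) := by
  have : ProperSpace E := FiniteDimensional.proper ℂ E
  set f : ι → E → ℝ := fun i z => tr c (u i z) with hfd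
  set g : E → ℝ := fun z => tr c (rlim U u z) with hgd
  have hf : ∀ i, IsPsh D fun z => (f i z : EReal) := fun i => (hu i).trunc c
  have hg : ∀ z ∈ D, rlim U (fun i z => (f i z : EReal)) z = g z := fun z hz => by
    rw [coe_tr (hb z hz), ← rlim_trunc]
    exact rlim_congr ((tendsto_snd.eventually (hD.mem_nhds hz)).mono fun p hp =>
      coe_tr ((hu _).lt_top _ hp))
  have hgp : IsPsh D fun z => (g z : EReal) :=
    (isPsh_rlim hD (Eventually.of_forall fun i => (hu i).sub) hb).trunc c
  obtain ⟨δ, hδ, hsub⟩ := hK.exists_cthickening_subset_open hD hKD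
  rw [show δ = 3 * (δ / 3) by ring] at hsub
  obtain ⟨C, hC⟩ := hgp.bdd hK.cthickening hsub
  have hC' : ∀ᶠ i in U, ∀ z ∈ cthickening (3 * (δ / 3)) K, f i z ≤ C + 1 :=
    (hartogs' hK.cthickening (g := fun _ => C + 1) (u := fun i z => (f i z : EReal))
      (fun _ _ => continuousAt_const) fun z hz => by
        rw [hg z (hsub hz)]; exact lt_coe_add (hC z hz) one_pos).mono
      fun i hi z hz => (EReal.coe_lt_coe_iff.1 (hi z hz)).le
  have hc : ∀ z ∈ D, c ≤ g z := fun z hz => le_tr' (hb z hz)
  have hm : ∀ {h : E → ℝ}, (IsPsh D fun z => (h z : EReal)) → AEMeasurable h (μ.restrict K) :=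
    fun h => (h.aemeasurable hD μ hK.measurableSet hKD).ereal_toReal
  set I := ∫⁻ z in K, ENNReal.ofReal (C + 1 - g z) ∂μ with hI
  have hIt : I ≠ ⊤ := by
    refine ((setLIntegral_mono' hK.measurableSet (g := fun _ => ENNReal.ofReal (C + 1 - c))
      fun z hz => ENNReal.ofReal_le_ofReal (by linarith [hc z (hKD hz)])).trans_lt ?_).ne
    rw [setLIntegral_const]
    exact ENNReal.mul_lt_top ENNReal.ofReal_lt_top hK.measure_lt_top
  refine ENNReal.tendsto_nhds_zero.2 fun ε hε => ?_
  have hε3 : 0 < ε / 3 := ENNReal.div_pos hε.ne' (by simp)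
  filter_upwards [hC', ev_pos_le μ hg hK hKD (hm hgp) (fun z hz => hc z (hKD hz)) hε3,
    ev_neg_le μ U hD hf hg hK (by positivity) hsub hc hC' (ENNReal.lt_add_right hIt hε3.ne')]
    with i h1 h2 h3
  refine (ENNReal.add_le_add_iff_right hIt).1 ?_
  calc ∫⁻ z in K, ‖f i z - g z‖ₑ ∂μ + I
      = ∫⁻ z in K, (‖f i z - g z‖ₑ + ENNReal.ofReal (C + 1 - g z)) ∂μ :=
        (lintegral_add_left' ((hm (hf i)).sub (hm hgp)).enorm _).symm
    _ ≤ ∫⁻ z in K, (ENNReal.ofReal (C + 1 - f i z) + (ENNReal.ofReal (f i z - g z) +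
          ENNReal.ofReal (f i z - g z))) ∂μ := by
        refine setLIntegral_mono' hK.measurableSet fun z hz => ?_
        have e1 := h1 z (self_subset_cthickening K hz)
        have e2 := EReal.coe_le_coe_iff.1 (hC z (self_subset_cthickening K hz))
        rw [← ofReal_norm, Real.norm_eq_abs, ← ENNReal.ofReal_add (abs_nonneg _) (by linarith)]
        rcases le_total (g z) (f i z) with h | h
        · rw [← ENNReal.ofReal_add (by linarith) (by linarith),
            ← ENNReal.ofReal_add (by linarith) (by linarith), abs_of_nonneg (by linarith)]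
          exact ENNReal.ofReal_le_ofReal (by linarith)
        · rw [abs_of_nonpos (by linarith)]
          exact le_add_right (ENNReal.ofReal_le_ofReal (by linarith))
    _ ≤ (I + ε / 3) + (ε / 3 + ε / 3) := by
        rw [lintegral_add_left' (f := fun z => ENNReal.ofReal (C + 1 - f i z))
            (aemeasurable_const.sub (hm (hf i))).ennreal_ofReal,
          lintegral_add_left' (f := fun z => ENNReal.ofReal (f i z - g z))
            ((hm (hf i)).sub (hm hgp)).ennreal_ofReal]
        exact add_le_add h3 (add_le_add h2 h2)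
    _ = ε + I := by rw [add_assoc, ← add_assoc (ε / 3), ENNReal.add_thirds, add_comm]

end Crest.Agent.X261.Lim
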