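import Crest.Agent.X261.Lim.E
import Crest.Agent.X261.Lim.L

/-!
# Row 261, package LIM (helper58), file `F`

Fast subsequences: `Sel 𝒰 p` says that every sequence picked in a suitable sequence of
`𝒰`-large sets has the property `p`.  Almost everywhere convergence of psh functions to their
relaxed limit along fast subsequences.
-/

set_option autoImplicit false
set_option linter.dupNamespace false
set_option linter.unusedSectionVars false

open Set Filter Topology Metric MeasureTheory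
open scoped ENNReal

noncomputable section

namespace Crest.Agent.X261.Lim

open Crest.Agent.X261.Psh Crest.Agent.X261.Ans

/-- `p` holds for all sufficiently fast sequences -/
def Sel {ι : Type*} (U : Filter ι) (p : (ℕ → ι) → Prop) : Prop :=
  ∃ B : ℕ → Set ι, (∀ m, B m ∈ U) ∧ ∀ l : ℕ → ι, (∀ᶠ j in atTop, l j ∈ B j) → p l

namespace Sel

variable {ι : Type*} {U : Filter ι} {p p' : (ℕ → ι) → Prop}

theorem mono (h : Sel U p) (hp : ∀ l, p l → p' l) : Sel U p' :=
  let ⟨B, h1, h2⟩ := h; ⟨B, h1, fun l hl => hp l (h2 l hl)⟩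

theorem and (h : Sel U p) (h' : Sel U p') : Sel U fun l => p l ∧ p' l := by
  obtain ⟨B, h1, h2⟩ := h
  obtain ⟨B', h1', h2'⟩ := h'
  exact ⟨fun m => B m ∩ B' m, fun m => inter_mem (h1 m) (h1' m), fun l hl =>
    ⟨h2 l (hl.mono fun _ h => h.1), h2' l (hl.mono fun _ h => h.2)⟩⟩

theorem all_nat {p : ℕ → (ℕ → ι) → Prop} (h : ∀ t, Sel U (p t)) : Sel U fun l => ∀ t, p t l := by
  choose B h1 h2 using h
  refine ⟨fun m => ⋂ t ∈ Finset.range m, B t m, fun m =>
    (biInter_finset_mem _).2 fun t _ => h1 t m, fun l hl t => h2 t l ?_⟩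
  filter_upwards [hl, eventually_gt_atTop t] with j h3 h4
  exact mem_iInter₂.1 h3 t (Finset.mem_range.2 h4)

theorem all {α : Type*} [Countable α] {p : α → (ℕ → ι) → Prop} (h : ∀ t, Sel U (p t)) :
    Sel U fun l => ∀ t, p t l := by
  rcases isEmpty_or_nonempty α with hα | hα
  · exact ⟨fun _ => univ, fun _ => univ_mem, fun _ _ t => isEmptyElim t⟩
  obtain ⟨f, hf⟩ := exists_surjective_nat α
  exact (all_nat fun t => h (f t)).mono fun l hl t => by
    obtain ⟨m, rfl⟩ := hf t; exact hl m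

theorem exists' [U.NeBot] (h : Sel U p) : ∃ l, p l := by
  obtain ⟨B, h1, h2⟩ := h
  choose l hl using fun m => Filter.nonempty_of_mem (h1 m)
  exact ⟨l, h2 l (Eventually.of_forall hl)⟩

end Sel

theorem sel_atTop {U : Filter ℕ} (h : U ≤ atTop) : Sel U fun l => Tendsto l atTop atTop :=
  ⟨fun m => Ici m, fun m => h (Ici_mem_atTop m), fun _ hl => tendsto_atTop_mono' _ hl tendsto_id⟩

theorem sel_ae_zero {ι X : Type*} {U : Filter ι} [MeasurableSpace X] {ν : Measure X}
    {f : ι → X → ℝ≥0∞} (hf : ∀ i, AEMeasurable (f i) ν)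
    (h : Tendsto (fun i => ∫⁻ x, f i x ∂ν) U (𝓝 0)) :
    Sel U fun l => ∀ᵐ x ∂ν, Tendsto (fun j => f (l j) x) atTop (𝓝 0) := by
  refine ⟨fun m => {i | ∫⁻ x, f i x ∂ν < 2⁻¹ ^ m}, fun m => h.eventually (gt_mem_nhds
    (ENNReal.pow_pos (by simp) m)), fun l hl => ?_⟩
  obtain ⟨m, hm⟩ := eventually_atTop.1 hl
  have h1 : ∫⁻ x, ∑' j, f (l (j + m)) x ∂ν < ⊤ := by
    rw [lintegral_tsum fun j => hf _]
    refine lt_of_le_of_lt (ENNReal.tsum_le_tsum (g := fun j => 2⁻¹ ^ j) fun j => ?_) ?_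
    · exact (hm (j + m) (Nat.le_add_left _ _)).le.trans
        (pow_le_pow_right_of_le_one' (by simp) (Nat.le_add_right _ _))
    · simp
  filter_upwards [ae_lt_top' (AEMeasurable.tsum fun j => hf _) h1.ne] with x hx
  exact (tendsto_add_atTop_iff_nat m).1 (ENNReal.tendsto_atTop_zero_of_tsum_ne_top hx.ne)

theorem tendsto_of_tr {a : ℕ → EReal} {x : EReal} (ha : ∀ j, a j < ⊤) (hx : x < ⊤)
    (h : ∀ N : ℕ, Tendsto (fun j => tr (-N) (a j)) atTop (𝓝 (tr (-N) x))) :
    Tendsto a atTop (𝓝 x) := by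
  have h' : ∀ N : ℕ, Tendsto (fun j => max (a j) ((-N : ℝ) : EReal)) atTop
      (𝓝 (max x ((-N : ℝ) : EReal))) := fun N => by
    have := (continuous_coe_real_ereal.tendsto _).comp (h N)
    rw [coe_tr hx] at this
    exact this.congr fun j => coe_tr (ha j)
  refine tendsto_order.2 ⟨fun b hb => ?_, fun b hb => ?_⟩
  · obtain ⟨c, h1, h2⟩ := EReal.lt_iff_exists_real_btwn.1 hb
    obtain ⟨N, hN⟩ := exists_nat_ge (-c)
    filter_upwards [(h' N).eventually (lt_mem_nhds (h2.trans_le (le_max_left _ _)))] with j hj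
    rcases lt_max_iff.1 hj with h3 | h3
    · exact h1.trans h3
    · exact absurd (EReal.coe_lt_coe_iff.1 h3) (by linarith)
  · obtain ⟨c, h1, h2⟩ := EReal.lt_iff_exists_real_btwn.1 hb
    obtain ⟨N, hN⟩ := exists_nat_gt (-c)
    filter_upwards [(h' N).eventually (gt_mem_nhds (max_lt h1
      (EReal.coe_lt_coe_iff.2 (by linarith))))] with j hj
    exact ((le_max_left _ _).trans_lt hj).trans h2

variable {E : Type} [NormedAddCommGroup E] [NormedSpace ℂ E] [FiniteDimensional ℂ E]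
  [MeasurableSpace E] [BorelSpace E] (μ : Measure E) [μ.IsAddHaarMeasure]

theorem measurable_tr (c : ℝ) : Measurable (tr c) :=
  measurable_ereal_toReal.comp (measurable_id.max measurable_const)

/-- almost everywhere convergence along fast sequences -/
theorem sel_ae {ι : Type*} (U : Ultrafilter ι) {D : Set E} (hD : IsOpen D) {u : ι → E → EReal}
    (hu : ∀ i, IsPsh D (u i)) (hb : ∀ x ∈ D, rlim U u x < ⊤) :
    Sel U fun l => ∀ᵐ z ∂μ, z ∈ D → Tendsto (fun j => u (l j) z) atTop (𝓝 (rlim U u z)) := by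
  have : ProperSpace E := FiniteDimensional.proper ℂ E
  have hU := isPsh_rlim hD (Eventually.of_forall fun i => (hu i).sub) hb
  choose! r hr hB using fun x (hx : x ∈ D) => exists_cball hD hx
  obtain ⟨t, ht, htc, hcv⟩ := TopologicalSpace.countable_cover_nhdsWithin (s := D)
    (f := fun x => closedBall x (r x))
    fun x hx => mem_nhdsWithin_of_mem_nhds (closedBall_mem_nhds x (hr x hx))
  have := htc.to_subtype
  refine (Sel.all fun a : t × ℕ => sel_ae_zero (ν := μ.restrict (closedBall a.1 (r a.1)))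
    (fun i => ?_) (l1_tr μ U hD hu hb (isCompact_closedBall _ _) (hB _ (ht a.1.2))
      (-(a.2 : ℝ)))).mono fun l hl => ?_
  · exact (((measurable_tr _).comp_aemeasurable ((hu i).aemeasurable hD μ measurableSet_closedBall
      (hB _ (ht a.1.2)))).sub ((measurable_tr _).comp_aemeasurable (hU.aemeasurable hD μ
        measurableSet_closedBall (hB _ (ht a.1.2))))).enorm
  · filter_upwards [ae_all_iff.2 fun a : t × ℕ =>
      (ae_restrict_iff' measurableSet_closedBall).1 (hl a)] with z hz hzD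
    obtain ⟨x, hx, hx'⟩ := mem_iUnion₂.1 (hcv hzD)
    refine tendsto_of_tr (fun j => (hu _).lt_top z hzD) (hb z hzD) fun N => ?_
    exact tendsto_sub_nhds_zero_iff.1 (tendsto_zero_iff_enorm_tendsto_zero.2 (hz (⟨x, hx⟩, N) hx'))

variable {M : Type} [TopologicalSpace M] {A : HA E M} {η : A.ι → E → ℝ}

theorem tendsto_of_add_coe {a : ℕ → EReal} {x : EReal} {c : ℝ}
    (h : Tendsto (fun j => a j + (c : EReal)) atTop (𝓝 (x + c))) : Tendsto a atTop (𝓝 x) := by
  have := (EReal.continuousAt_add (p := (x + c, ((-c : ℝ) : EReal))) (Or.inr (EReal.coe_ne_bot _))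
    (Or.inr (EReal.coe_ne_top _))).tendsto.comp (h.prodMk_nhds tendsto_const_nhds)
  simpa only [Function.comp_def, add_coe_neg] using this

theorem Fam.sel [Countable A.ι] {ι κ : Type*} {U : Ultrafilter ι} {O : κ → Set M} {S : Set M}
    {u : κ → ι → M → EReal} (h : Fam A η U O S u) (hu : ∀ k i, WP A η (O k) (u k i))
    (hb : ∀ x, gl0 U O u x < ⊤) : Sel U fun l => Eqv.AE μ A fun x => x ∈ ⋃ k, O k →
      ∃ k, x ∈ O k ∧ Tendsto (fun j => u k (l j) x) atTop (𝓝 (gl U O u x)) := by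
  have := HA.secondCountable A
  obtain ⟨T, hT, hTe⟩ := TopologicalSpace.isOpen_iUnion_countable O h.opn
  have := hT.to_subtype
  refine (Sel.all fun a : A.ι × T => sel_ae μ U (isOpen_ch A a.1 (h.opn a.2))
    (fun i => hu a.2 i a.1) fun z hz => ?_).mono fun l hl j => ?_
  · rw [rlim_chart _ (h.cont _) hz.1, ← h.gl0_eq hz.2]
    exact add_lt_top' (hb _) (EReal.coe_lt_top _)
  · filter_upwards [ae_all_iff.2 fun k : T => hl (j, k)] with z hz hz1 hz2
    rw [← hTe] at hz2
    obtain ⟨k, hk, hk'⟩ := mem_iUnion₂.1 hz2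
    have := hz ⟨k, hk⟩ ⟨hz1, hk'⟩
    rw [rlim_chart _ (h.cont _) hz1, ← h.gl_eq hk'] at this
    exact ⟨k, hk', tendsto_of_add_coe this⟩

theorem Thin.ae {S : Set M} (h : Thin A S) : Eqv.AE μ A fun x => x ∉ S := fun j => by
  filter_upwards [measure_eq_zero_iff_ae_notMem.1 ((h j).null μ)] with z hz h1 h2
  exact hz ⟨h1, h2⟩

theorem Plr.ae {Z : Set M} (h : Plr A Z) : Eqv.AE μ A fun x => x ∉ Z := fun j => by
  have key : μ (ch A j Z) = 0 := by
    refine measure_null_of_locally_null _ fun z hz => ?_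
    obtain ⟨U, v, hU, hzU, hv, hd, hZ⟩ := h j z hz.1
    refine ⟨ch A j Z ∩ U, inter_mem_nhdsWithin _ (hU.mem_nhds hzU),
      measure_mono_null (fun w hw => ?_) (hv.dn_ae μ hU hd)⟩
    exact fun h' => h' hw.2 (hZ w hw.2 hw.1.1 hw.1.2)
  filter_upwards [measure_eq_zero_iff_ae_notMem.1 key] with z hz h1 h2
  exact hz ⟨h1, h2⟩

theorem ae_exists [Nonempty M] {p : M → Prop} (h : Eqv.AE μ A p) : ∃ x, p x := by
  obtain ⟨j, hj⟩ := A.cover (Classical.arbitrary M)
  have h1 : μ (A.e j).target ≠ 0 :=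
    (A.e j).open_target.measure_ne_zero μ ⟨_, (A.e j).map_source hj⟩
  obtain ⟨z, hz, hz'⟩ := Measure.exists_mem_of_measure_ne_zero_of_ae h1
    ((ae_restrict_iff' (A.e j).open_target.measurableSet).2 (h j))
  exact ⟨_, hz'⟩

theorem ae_prod {p : M → Prop} (h : Eqv.AE μ A p) :
    Eqv.AE (μ.prod μ) (A.prod A) fun q => p q.1 ∧ p q.2 := fun j => by
  filter_upwards [Measure.quasiMeasurePreserving_fst.ae (h j.1),
    Measure.quasiMeasurePreserving_snd.ae (h j.2)] with z h1 h2 hz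
  exact ⟨h1 hz.1, h2 hz.2⟩

end Crest.Agent.X261.Lim
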